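import Vale.Agent.P281Z.Hg.K1b

/-!
# P301Z, rotation: forms of degree two as bilinear maps
-/

open scoped ContDiff ComplexOrder Topology Matrix
open Filter
open Vale.Agent.P272.K Vale.Agent.P272.K.C2 Vale.Agent.P299.IX Vale.Agent.P299.IX.Fock
open Vale.Agent.P281Z.Hg

noncomputable section

namespace Vale.Agent.P301Z.Rot

section fock

variable {n : ℕ} {u u' : Fk n} {x y : Fin n → ℂ}

/-- the value of the part of degree two on two vectors -/
def ev2 (u : Fk n) (x y : Fin n → ℂ) : ℂ := (iotV y *ᵥ (iotV x *ᵥ u)) ∅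

theorem ev2_add (u u' : Fk n) (x y) : ev2 (u + u') x y = ev2 u x y + ev2 u' x y := by
  simp only [ev2, Matrix.mulVec_add, Pi.add_apply]

theorem ev2_sub (u u' : Fk n) (x y) : ev2 (u - u') x y = ev2 u x y - ev2 u' x y := by
  simp only [ev2, Matrix.mulVec_sub, Pi.sub_apply]

theorem ev2_smul (c : ℂ) (u : Fk n) (x y) : ev2 (c • u) x y = c * ev2 u x y := by
  simp only [ev2, Matrix.mulVec_smul, Pi.smul_apply, smul_eq_mul]

theorem ev2_sum {ι : Type*} (s : Finset ι) (u : ι → Fk n) (x y) :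
    ev2 (∑ i ∈ s, u i) x y = ∑ i ∈ s, ev2 (u i) x y := by
  simp only [ev2, Matrix.mulVec_sum, Finset.sum_apply]

theorem ev2_skew (u : Fk n) (x y) : ev2 u x y = -ev2 u y x := by
  simp only [ev2, Matrix.mulVec_mulVec]
  rw [iotV_iotV, Matrix.neg_mulVec, Pi.neg_apply]

theorem ev2_add_l (u : Fk n) (x x' y) : ev2 u (x + x') y = ev2 u x y + ev2 u x' y := by
  simp only [ev2, iotV_add, Matrix.add_mulVec, Matrix.mulVec_add, Pi.add_apply]

theorem ev2_smul_l (u : Fk n) (c : ℂ) (x y) : ev2 u (c • x) y = c * ev2 u x y := by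
  simp only [ev2, iotV_smul, Matrix.smul_mulVec, Matrix.mulVec_smul, Pi.smul_apply, smul_eq_mul]

theorem ev2_add_r (u : Fk n) (x y y') : ev2 u x (y + y') = ev2 u x y + ev2 u x y' := by
  simp only [ev2, iotV_add, Matrix.add_mulVec, Pi.add_apply]

theorem ev2_smul_r (u : Fk n) (c : ℂ) (x y) : ev2 u x (c • y) = c * ev2 u x y := by
  simp only [ev2, iotV_smul, Matrix.smul_mulVec, Pi.smul_apply, smul_eq_mul]

/-- the matrix of coefficients -/
def m2 (u : Fk n) : Matrix (Fin n) (Fin n) ℂ := Matrix.of fun a b => (iot b *ᵥ (iot a *ᵥ u)) ∅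

theorem ev2_single (u : Fk n) (a b : Fin n) :
    ev2 u (Pi.single a 1) (Pi.single b 1) = m2 u a b := by
  rw [ev2, iotV_single, iotV_single]
  rfl

theorem ev2_eq (u : Fk n) (x y) : ev2 u x y = ∑ a, ∑ b, x a * y b * m2 u a b := by
  simp only [ev2, iotV, Matrix.sum_mulVec, Matrix.mulVec_sum, Matrix.smul_mulVec,
    Matrix.mulVec_smul, Finset.sum_apply, Pi.smul_apply, smul_eq_mul, Finset.mul_sum, m2,
    Matrix.of_apply]
  exact Finset.sum_congr rfl fun a _ => Finset.sum_congr rfl fun b _ => by ring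

theorem m2_skew (u : Fk n) (a b : Fin n) : m2 u a b = -m2 u b a := by
  rw [← ev2_single, ← ev2_single, ev2_skew]

theorem lam_empty (J : Matrix (Fin n) (Fin n) ℂ) (u : Fk n) : (lam J *ᵥ u) ∅ = u ∅ := by
  simp [Matrix.mulVec, dotProduct, lam_apply_empty]

theorem ev2_lam (J : Matrix (Fin n) (Fin n) ℂ) (u : Fk n) (x y) :
    ev2 (lam J *ᵥ u) x y = ev2 u (x ᵥ* J) (y ᵥ* J) := by
  simp only [ev2, Matrix.mulVec_mulVec]
  rw [iotV_lam, ← Matrix.mul_assoc, iotV_lam, Matrix.mul_assoc, ← Matrix.mulVec_mulVec, lam_empty]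

theorem ev2_star (u : Fk n) (x y) : ev2 (star u) (star x) (star y) = star (ev2 u x y) := by
  have h : ∀ a b, m2 (star u) a b = star (m2 u a b) := fun a b => by
    show _ = star (iot b *ᵥ (iot a *ᵥ u)) ∅
    rw [F1bH.star_mv, F1bH.star_mv, F1bH.iot_star, F1bH.iot_star]
    rfl
  simp only [ev2_eq, h, star_sum, star_mul', Pi.star_apply]

theorem iotV_eps_mv (x : Fin n → ℂ) (l : Fin n) (u : Fk n) :
    iotV x *ᵥ (eps l *ᵥ u) = x l • u - eps l *ᵥ (iotV x *ᵥ u) := by
  have h := congrArg (· *ᵥ u) (iotV_eps x l)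
  simp only [Matrix.add_mulVec, ← Matrix.mulVec_mulVec, Matrix.smul_mulVec, Matrix.one_mulVec] at h
  rw [← h, add_sub_cancel_right]

theorem ev2_eps (a b : Fin n) (x y) :
    ev2 ((eps a * eps b) *ᵥ ev ∅) x y = x a * y b - y a * x b := by
  simp only [ev2, ← Matrix.mulVec_mulVec, iotV_eps_mv, iotV_ev_empty, Matrix.mulVec_zero,
    Matrix.mulVec_sub, Matrix.mulVec_smul, sub_zero, Pi.sub_apply, Pi.smul_apply, smul_eq_mul]
  simp [ev]
  ring

theorem eq_zero_of_m2 (h : dg 2 *ᵥ u = u) (h0 : ∀ a b, m2 u a b = 0) : u = 0 := by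
  funext I
  by_cases hI : I.card = 2
  · obtain ⟨a, b, hab, rfl⟩ := Finset.card_eq_two.1 hI
    have k := h0 a b
    have k1 : a ∉ ({b} : Finset (Fin n)) := fun e => hab (Finset.mem_singleton.1 e)
    simp only [m2, Matrix.of_apply, iot_mulVec, Finset.notMem_empty, if_false, insert_empty_eq,
      if_neg k1] at k
    have k2 : ∀ l J, sg (n := n) l J ≠ 0 := fun l J e => by
      have := sg_mul_self l J
      rw [e, zero_mul] at this
      exact zero_ne_one this
    exact (mul_eq_zero.1 ((mul_eq_zero.1 k).resolve_left (k2 _ _))).resolve_left (k2 _ _)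
  · rw [← h, dg_mulVec, if_neg hI]
    rfl

theorem ev3_eps (p : Fin n) (u : Fk n) (x y z : Fin n → ℂ) :
    (iotV z *ᵥ (iotV y *ᵥ (iotV x *ᵥ (eps p *ᵥ u)))) ∅ =
      x p * ev2 u y z - y p * ev2 u x z + z p * ev2 u x y := by
  simp only [iotV_eps_mv, Matrix.mulVec_sub, Matrix.mulVec_smul, Pi.sub_apply, Pi.smul_apply,
    smul_eq_mul, eps_mulVec_empty, ev2]
  ring

end fock

variable {d : ℕ}

/-- the value of a form on two real vectors -/
def bv (u : Fo d) (v v' : Cm d) : ℂ := ev2 u (cx v) (cx v')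

theorem cx_add (v v' : Cm d) : cx (v + v') = cx v + cx v' := by
  funext l
  obtain ⟨L, e⟩ := Kb.cx_clm l
  simp only [Pi.add_apply, e, map_add]

theorem cx_one (j : Fin d) : cx (Pi.single j (1 : ℂ) : Cm d) =
    Pi.single (hl j) 1 + Pi.single (ah j) 1 := by
  funext l
  refine F1bH.idx (P := fun l => cx _ l = _) (fun i => ?_) (fun i => ?_) l
  · simp [Ka.cx_hl, Pi.single_apply, F1bH.hl_inj, F1bH.hl_ne]
  · simp [Ka.cx_ah, Pi.single_apply, F1bH.ah_inj, (F1bH.hl_ne _ _).symm]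

theorem cx_I (j : Fin d) : cx (Pi.single j Complex.I : Cm d) =
    Complex.I • Pi.single (hl j) 1 + (-Complex.I) • Pi.single (ah j) 1 := by
  funext l
  refine F1bH.idx (P := fun l => cx _ l = _) (fun i => ?_) (fun i => ?_) l
  · simp [Ka.cx_hl, Pi.single_apply, F1bH.hl_inj, F1bH.hl_ne]
  · by_cases h : i = j <;> simp [Ka.cx_ah, F1bH.ah_inj, (F1bH.hl_ne _ _).symm, h]

theorem bv_skew (u : Fo d) (v v') : bv u v v' = -bv u v' v := ev2_skew _ _ _

theorem bv_add (u u' : Fo d) (v v') : bv (u + u') v v' = bv u v v' + bv u' v v' := ev2_add _ _ _ _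

theorem bv_sub (u u' : Fo d) (v v') : bv (u - u') v v' = bv u v v' - bv u' v v' := ev2_sub _ _ _ _

theorem bv_smul (c : ℂ) (u : Fo d) (v v') : bv (c • u) v v' = c * bv u v v' := ev2_smul _ _ _ _

/-- the four blocks -/
def mhh (u : Fo d) : Matrix (Fin d) (Fin d) ℂ := Matrix.of fun j k => m2 u (hl j) (hl k)

/-- the four blocks -/
def mha (u : Fo d) : Matrix (Fin d) (Fin d) ℂ := Matrix.of fun j k => m2 u (hl j) (ah k)

/-- the four blocks -/
def maa (u : Fo d) : Matrix (Fin d) (Fin d) ℂ := Matrix.of fun j k => m2 u (ah j) (ah k)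

theorem bv_eq (u : Fo d) (v v' : Cm d) : bv u v v' = v ⬝ᵥ mhh u *ᵥ v' + v ⬝ᵥ mha u *ᵥ star v' -
    v' ⬝ᵥ mha u *ᵥ star v + star v ⬝ᵥ maa u *ᵥ star v' := by
  have h : ∑ j, ∑ k, star (v j) * v' k * m2 u (ah j) (hl k) = -(v' ⬝ᵥ mha u *ᵥ star v) := by
    rw [Finset.sum_comm]
    simp only [dotProduct, Matrix.mulVec, mha, Matrix.of_apply, Finset.mul_sum, Pi.star_apply,
      ← Finset.sum_neg_distrib]
    exact Finset.sum_congr rfl fun a _ => Finset.sum_congr rfl fun b _ => by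
      rw [m2_skew]; ring
  simp only [bv, ev2_eq, Ka.sum_idx, Ka.cx_hl, Ka.cx_ah, Finset.sum_add_distrib]
  rw [h]
  simp only [dotProduct, Matrix.mulVec, mhh, mha, maa, Matrix.of_apply, Finset.mul_sum,
    Pi.star_apply, mul_comm, mul_assoc]
  ring

theorem dot_single (A : Matrix (Fin d) (Fin d) ℂ) (j k : Fin d) (a b : ℂ) :
    (Pi.single j a : Cm d) ⬝ᵥ A *ᵥ (Pi.single k b : Cm d) = a * b * A j k := by
  simp [Matrix.mulVec, dotProduct, Pi.single_apply]
  ring

theorem star_single (j : Fin d) (a : ℂ) : star (Pi.single j a : Cm d) = Pi.single j (star a) := by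
  funext k
  by_cases h : k = j <;> simp [h]

theorem bv_single (u : Fo d) (j k : Fin d) (a b : ℂ) : bv u (Pi.single j a) (Pi.single k b) =
    a * b * mhh u j k + a * star b * mha u j k - b * star a * mha u k j +
      star a * star b * maa u j k := by
  simp only [bv_eq, star_single, dot_single]

theorem blocks_of {u : Fo d} {A B D : Matrix (Fin d) (Fin d) ℂ}
    (h : ∀ v v', bv u v v' = v ⬝ᵥ A *ᵥ v' + v ⬝ᵥ B *ᵥ star v' - v' ⬝ᵥ B *ᵥ star v +
      star v ⬝ᵥ D *ᵥ star v') : mhh u = A ∧ mha u = B ∧ maa u = D := by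
  have k : ∀ j k, mhh u j k = A j k ∧ mha u j k = B j k ∧ maa u j k = D j k := fun j k => by
    have h1 := h (Pi.single j 1) (Pi.single k 1)
    have h2 := h (Pi.single j Complex.I) (Pi.single k 1)
    have h3 := h (Pi.single j 1) (Pi.single k Complex.I)
    have h4 := h (Pi.single j Complex.I) (Pi.single k Complex.I)
    simp only [bv_single, star_single, dot_single, star_one, Complex.star_def, Complex.conj_I]
      at h1 h2 h3 h4
    have e := Complex.I_sq
    have h5 : mhh u j k + mha u j k + mha u k j - maa u j k = A j k + B j k + B k j - D j k := by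
      linear_combination (-Complex.I) * h2 + (mhh u j k + mha u j k + mha u k j - maa u j k -
        (A j k + B j k + B k j - D j k)) * e
    have h6 : mhh u j k - mha u j k - mha u k j - maa u j k = A j k - B j k - B k j - D j k := by
      linear_combination (-Complex.I) * h3 + (mhh u j k - mha u j k - mha u k j - maa u j k -
        (A j k - B j k - B k j - D j k)) * e
    have h7 : mhh u j k - mha u j k + mha u k j + maa u j k = A j k - B j k + B k j + D j k := by
      linear_combination -h4 + (mhh u j k - mha u j k + mha u k j + maa u j k -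
        (A j k - B j k + B k j + D j k)) * e
    exact ⟨by linear_combination (h1 + h5 + h6 + h7) / 4,
      by linear_combination (h1 + h5 - h6 - h7) / 4, by linear_combination (h1 - h5 - h6 + h7) / 4⟩
  exact ⟨Matrix.ext fun j l => (k j l).1, Matrix.ext fun j l => (k j l).2.1,
    Matrix.ext fun j l => (k j l).2.2⟩

theorem bv_ext {u u' : Fo d} (h : dg 2 *ᵥ u = u) (h' : dg 2 *ᵥ u' = u')
    (k : ∀ v v', bv u v v' = bv u' v v') : u = u' := by
  obtain ⟨k1, k2, k3⟩ := blocks_of (u := u - u') (A := 0) (B := 0) (D := 0) fun v v' => by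
    simp [bv_sub, k]
  refine sub_eq_zero.1 (eq_zero_of_m2 (by rw [Matrix.mulVec_sub, h, h']) fun a b => ?_)
  refine F1bH.idx (P := fun a => m2 _ a b = 0) (fun i => ?_) (fun i => ?_) a <;>
    refine F1bH.idx (P := fun b => m2 _ _ b = 0) (fun j => ?_) (fun j => ?_) b
  · exact congrFun (congrFun k1 i) j
  · exact congrFun (congrFun k2 i) j
  · rw [m2_skew, neg_eq_zero]
    exact congrFun (congrFun k2 j) i
  · exact congrFun (congrFun k3 i) j

theorem cx_swm (v : Cm d) : cx v ᵥ* swm d = star (cx v) := by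
  funext l
  refine F1bH.idx (P := fun l => (cx v ᵥ* swm d) l = star (cx v) l) (fun i => ?_) (fun i => ?_) l
  · simp [Matrix.vecMul, dotProduct, F1bH.swm_hl, Ka.cx_ah, Ka.cx_hl]
  · simp [Matrix.vecMul, dotProduct, F1bH.swm_ah, Ka.cx_ah, Ka.cx_hl]

theorem bv_cjv (u : Fo d) (v v' : Cm d) : bv (cjv u) v v' = star (bv u v v') := by
  rw [bv, cjv, ev2_lam, cx_swm, cx_swm, ev2_star, bv]

theorem cx_jc {ψ : Cm d → Cm d} {z : Cm d} (h : DifferentiableAt ℝ ψ z) (v : Cm d) :
    cx v ᵥ* jc ψ z = cx (fderiv ℝ ψ z v) := by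
  funext l
  rw [← Kb.cx_fd l h, Ka.fd]
  rfl

theorem bv_jc {ψ : Cm d → Cm d} {z : Cm d} (h : DifferentiableAt ℝ ψ z) (u : Fo d) (v v' : Cm d) :
    bv (lam (jc ψ z) *ᵥ u) v v' = bv u (fderiv ℝ ψ z v) (fderiv ℝ ψ z v') := by
  rw [bv, ev2_lam, cx_jc h, cx_jc h, bv]

theorem bv_om (w : Matrix (Fin d) (Fin d) ℂ) (v v' : Cm d) : bv (Lw w *ᵥ ev ∅) v v' =
    Complex.I * (v ⬝ᵥ w *ᵥ star v' - v' ⬝ᵥ w *ᵥ star v) := by
  simp only [bv, Lw, Matrix.sum_mulVec, Matrix.smul_mulVec, ev2_sum, ev2_smul, ev2_eps, Ka.cx_hl,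
    Ka.cx_ah, dotProduct, Matrix.mulVec, Finset.mul_sum, Pi.star_apply, ← Finset.sum_sub_distrib]
  exact Finset.sum_congr rfl fun a _ => Finset.sum_congr rfl fun b _ => by ring

theorem dg_two (a b : Fin (d + d)) :
    dg 2 *ᵥ ((eps a * eps b) *ᵥ ev ∅) = (eps a * eps b) *ᵥ ev ∅ := by
  rw [Matrix.mulVec_mulVec, ← Matrix.mul_assoc, dg_eps, Matrix.mul_assoc, dg_eps,
    ← Matrix.mul_assoc, ← Matrix.mulVec_mulVec]
  congr 1
  funext I
  by_cases h : I = ∅ <;> simp [dg_mulVec, ev, h]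

theorem dg_om (w : Matrix (Fin d) (Fin d) ℂ) : dg 2 *ᵥ (Lw w *ᵥ ev ∅) = Lw w *ᵥ ev ∅ := by
  simp only [Lw, Matrix.sum_mulVec, Matrix.smul_mulVec, Matrix.mulVec_sum, Matrix.mulVec_smul,
    dg_two]

section der

variable {u : Cm d → Fo d} {z : Cm d}

theorem ev2_cd {m : WithTop ℕ∞} (hu : ContDiffAt ℝ m u z) (x y) :
    ContDiffAt ℝ m (fun w => ev2 (u w) x y) z :=
  contDiffAt_pi.1 (Ka.cd_mul _ (Ka.cd_mul _ hu)) ∅

theorem m2_cd {m : WithTop ℕ∞} (hu : ContDiffAt ℝ m u z) (a b) :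
    ContDiffAt ℝ m (fun w => m2 (u w) a b) z := by
  simpa only [ev2_single] using ev2_cd hu (Pi.single a 1) (Pi.single b 1)

theorem ev2_Dv (hu : DifferentiableAt ℝ u z) (p x y) :
    ev2 (Dv p u z) x y = dr p (fun w => ev2 (u w) x y) z := by
  rw [ev2, ← Ka.Dv_mul _ hu, ← Ka.Dv_mul _ (Ka.df_mul _ hu)]
  rfl

/-- the exterior derivative on three vectors -/
theorem ev3_dT (hu : DifferentiableAt ℝ u z) (x y t : Fin (d + d) → ℂ) :
    (iotV t *ᵥ (iotV y *ᵥ (iotV x *ᵥ dT u z))) ∅ =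
      ∑ p, x p * dr p (fun w => ev2 (u w) y t) z - ∑ p, y p * dr p (fun w => ev2 (u w) x t) z +
        ∑ p, t p * dr p (fun w => ev2 (u w) x y) z := by
  simp only [dT, Matrix.mulVec_sum, Finset.sum_apply, ev3_eps, ev2_Dv hu, Finset.sum_add_distrib,
    Finset.sum_sub_distrib]

theorem closed_m2 (hu : DifferentiableAt ℝ u z) (h : dT u z = 0) (a b c : Fin (d + d)) :
    dr a (fun w => m2 (u w) b c) z - dr b (fun w => m2 (u w) a c) z +
      dr c (fun w => m2 (u w) a b) z = 0 := by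
  have k := ev3_dT hu (Pi.single a 1) (Pi.single b 1) (Pi.single c 1)
  simpa [h, ev2_single, Pi.single_apply] using k.symm

theorem closed_bv (hu : DifferentiableAt ℝ u z) (h : dT u z = 0) (a b c : Cm d) :
    fderiv ℝ (fun w => bv (u w) b c) z a + fderiv ℝ (fun w => bv (u w) c a) z b +
      fderiv ℝ (fun w => bv (u w) a b) z c = 0 := by
  have k := ev3_dT hu (cx a) (cx b) (cx c)
  have e : (fun w => bv (u w) c a) = fun w => -bv (u w) a c := funext fun w => bv_skew _ _ _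
  rw [e, fderiv_fun_neg, neg_apply, Ka.fd, Ka.fd, Ka.fd, ← sub_eq_add_neg]
  simpa [h, bv] using k.symm

end der

/-- the coordinate functions as real linear maps -/
def cxL (l : Fin (d + d)) : Cm d →L[ℝ] ℂ := (Kb.cx_clm l).choose

theorem cxL_apply (l : Fin (d + d)) (v : Cm d) : cxL l v = cx v l :=
  ((Kb.cx_clm l).choose_spec v).symm

/-- the real bilinear map of a form -/
def bL (u : Fo d) : Cm d →L[ℝ] Cm d →L[ℝ] ℂ := ∑ a, ∑ b, m2 u a b • (cxL a).smulRight (cxL b)

theorem bL_apply (u : Fo d) (v v' : Cm d) : bL u v v' = bv u v v' := by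
  simp only [bL, bv, ev2_eq, sum_apply, smul_apply,
    ContinuousLinearMap.smulRight_apply, cxL_apply, smul_eq_mul]
  exact Finset.sum_congr rfl fun a _ => Finset.sum_congr rfl fun b _ => by ring

/-- the real bilinear map of a form depends linearly on the form -/
def bLL (d : ℕ) : Fo d →L[ℝ] Cm d →L[ℝ] Cm d →L[ℝ] ℂ := LinearMap.toContinuousLinearMap
  { toFun := bL
    map_add' := fun u u' => by
      ext1 v
      ext1 v'
      simp only [add_apply, bL_apply, bv_add]
    map_smul' := fun c u => by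
      ext1 v
      ext1 v'
      simp only [smul_apply, bL_apply, RingHom.id_apply]
      exact bv_smul c u v v' }

theorem bL_cd {E : Type} [NormedAddCommGroup E] [NormedSpace ℝ E] {m : WithTop ℕ∞} {u : E → Fo d}
    {z : E} (hu : ContDiffAt ℝ m u z) : ContDiffAt ℝ m (fun w => bL (u w)) z := by
  have h : ContDiff ℝ m (bLL d) :=
    ContinuousLinearMap.contDiff (𝕜 := ℝ) (E := Fo d) (F := Cm d →L[ℝ] Cm d →L[ℝ] ℂ) (bLL d)
  exact h.contDiffAt.comp z hu

theorem bL_fd {u : Cm d → Fo d} {z : Cm d} (hu : ContDiffAt ℝ 1 u z) (a b c : Cm d) :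
    fderiv ℝ (fun w => bL (u w)) z a b c = fderiv ℝ (fun w => bv (u w) b c) z a := by
  have h : DifferentiableAt ℝ (fun w => bL (u w)) z := (bL_cd hu).differentiableAt one_ne_zero
  simp only [← bL_apply]
  rw [fderiv_clm_apply (h.clm_apply (differentiableAt_const _)) (differentiableAt_const _),
    fderiv_clm_apply h (differentiableAt_const _)]
  simp

theorem closed_bL {u : Cm d → Fo d} {z : Cm d} (hu : ContDiffAt ℝ 1 u z) (h : dT u z = 0)
    (a b c : Cm d) : fderiv ℝ (fun w => bL (u w)) z a b c + fderiv ℝ (fun w => bL (u w)) z b c a +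
      fderiv ℝ (fun w => bL (u w)) z c a b = 0 := by
  rw [bL_fd hu, bL_fd hu, bL_fd hu, closed_bv (hu.differentiableAt one_ne_zero) h]

end Vale.Agent.P301Z.Rot
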