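import Vale.Agent.P301Z.Rot.Man

/-!
# P301Z, rotation: closed forms of pure type as matrix fields
-/

open scoped Manifold ContDiff ComplexOrder Topology Matrix
open Filter Complex
open Vale.Agent.P272.K Vale.Agent.P272.K.C2 Vale.Agent.P299.IX Vale.Agent.P299.IX.Fock
open Vale.Agent.P281Z (Mf)
open Vale.Agent.P281Z.Hg Vale.Agent.P301Z.Lat
open Vale.Agent.P301.H599 (IsHolTwoForm)

noncomputable section

namespace Vale.Agent.P301Z.Rot

variable {d : ℕ}

section pt

variable {u : Fo d} {S : Mx d}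

theorem dot_skew (hS : Sᵀ = -S) (v v' : Cm d) : v' ⬝ᵥ S *ᵥ v = -(v ⬝ᵥ S *ᵥ v') := by
  rw [Matrix.dotProduct_mulVec, dotProduct_comm, ← Matrix.mulVec_transpose, hS, Matrix.neg_mulVec,
    dotProduct_neg]

theorem bv_f20 (hS : Sᵀ = -S) (v v' : Cm d) : bv (f20 S) v v' = v ⬝ᵥ S *ᵥ v' := by
  have k : bv (f20 S) v v' = (v ⬝ᵥ S *ᵥ v' - v' ⬝ᵥ S *ᵥ v) / 2 := by
    simp only [bv, f20, tw, Matrix.mulVec_mulVec, ev2_sum, ev2_smul, ev2_eps]
    simp only [Ka.sum_idx, F1bH.blk_hh, F1bH.blk_ha, F1bH.blk_ah, F1bH.blk_aa, Matrix.zero_apply,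
      zero_div, zero_mul,
      Finset.sum_const_zero, add_zero, Ka.cx_hl, dotProduct, Matrix.mulVec, Finset.mul_sum,
      ← Finset.sum_sub_distrib, Finset.sum_div]
    exact Finset.sum_congr rfl fun a _ => Finset.sum_congr rfl fun b _ => by ring
  rw [k, dot_skew hS v v']
  ring

theorem dg_f20 (S : Mx d) : dg 2 *ᵥ f20 S = f20 S := by
  simp only [f20, tw, Matrix.mulVec_sum, Matrix.mulVec_smul]
  refine Finset.sum_congr rfl fun a _ => Finset.sum_congr rfl fun b _ => ?_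
  rw [Matrix.mulVec_mulVec (ev ∅) (eps a) (eps b), dg_two]

theorem bv_f11 (w : Mx d) (v v' : Cm d) :
    bv (f11 w) v v' = I * (v ⬝ᵥ w *ᵥ star v' - v' ⬝ᵥ w *ᵥ star v) := bv_om w v v'

theorem mhh_skew (u : Fo d) : (mhh u)ᵀ = -mhh u := Matrix.ext fun _ _ => m2_skew u _ _

theorem single_I (j : Fin d) (a : ℂ) : I • (Pi.single j a : Cm d) = Pi.single j (I * a) := by
  rw [← Pi.single_smul, smul_eq_mul]

theorem typ20 (h : ∀ a, Jr u a (I • a)) : mha u = 0 ∧ maa u = 0 := by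
  have k : ∀ j k, mha u k j = 0 ∧ maa u j k = 0 := fun j k => by
    have h1 := h (Pi.single j 1) (Pi.single k 1)
    have h2 := h (Pi.single j 1) (Pi.single k I)
    simp only [single_I, bv_single, star_one, Complex.star_def, conj_I, mul_one, one_mul] at h1 h2
    have e := I_sq
    have h3 : mha u k j - maa u j k = 0 := by
      linear_combination (-I / 2) * h1 + (mha u k j - maa u j k) * e
    have h4 : mha u k j + maa u j k = 0 := by
      linear_combination (-1 / 2) * h2 + (mha u k j + maa u j k) * e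
    exact ⟨by linear_combination (h3 + h4) / 2, by linear_combination (h4 - h3) / 2⟩
  exact ⟨Matrix.ext fun j l => (k l j).1, Matrix.ext fun j l => (k j l).2⟩

theorem bv_20 (h : ∀ a, Jr u a (I • a)) (v v' : Cm d) : bv u v v' = v ⬝ᵥ mhh u *ᵥ v' := by
  simp [bv_eq, (typ20 h).1, (typ20 h).2]

theorem eq_f20 (hd : dg 2 *ᵥ u = u) (h : ∀ a, Jr u a (I • a)) : u = f20 (mhh u) :=
  bv_ext hd (dg_f20 _) fun v v' => by rw [bv_20 h, bv_f20 (mhh_skew u)]

/-- the coefficient matrix of the part of type `(1,1)` -/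
def w11 (u : Fo d) : Mx d := (-I) • mha u

theorem typ11 (h : ∀ a b, bv u (I • a) (I • b) = bv u a b) : mhh u = 0 ∧ maa u = 0 := by
  have k : ∀ j k, mhh u j k = 0 ∧ maa u j k = 0 := fun j k => by
    have h1 := h (Pi.single j 1) (Pi.single k 1)
    have h2 := h (Pi.single j 1) (Pi.single k I)
    simp only [single_I, bv_single, star_one, Complex.star_def, conj_I, mul_one, one_mul, I_mul_I,
      map_neg, map_one] at h1 h2
    have e := I_sq
    have h3 : mhh u j k + maa u j k = 0 := by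
      linear_combination (-1 / 2) * h1 + (-mha u j k + mha u k j + maa u j k) / 2 * e
    have h4 : mhh u j k - maa u j k = 0 := by
      linear_combination (I / 2) * h2 + (mhh u j k - maa u j k) * e
    exact ⟨by linear_combination (h3 + h4) / 2, by linear_combination (h3 - h4) / 2⟩
  exact ⟨Matrix.ext fun j l => (k j l).1, Matrix.ext fun j l => (k j l).2⟩

theorem bv_11 (h : ∀ a b, bv u (I • a) (I • b) = bv u a b) (v v' : Cm d) :
    bv u v v' = I * (v ⬝ᵥ w11 u *ᵥ star v' - v' ⬝ᵥ w11 u *ᵥ star v) := by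
  simp only [bv_eq, (typ11 h).1, (typ11 h).2, w11, Matrix.zero_mulVec, dotProduct_zero,
    Matrix.smul_mulVec, dotProduct_smul, smul_eq_mul]
  linear_combination (v ⬝ᵥ mha u *ᵥ star v' - v' ⬝ᵥ mha u *ᵥ star v) * I_sq

theorem eq_f11 (hd : dg 2 *ᵥ u = u) (h : ∀ a b, bv u (I • a) (I • b) = bv u a b) :
    u = f11 (w11 u) := bv_ext hd (dg_om _) fun v v' => by rw [bv_11 h, bv_f11]

theorem w11_herm (h : ∀ a b, bv u (I • a) (I • b) = bv u a b)
    (hr : ∀ a b, star (bv u a b) = bv u a b) : (w11 u).IsHermitian := by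
  ext j k
  have h1 := hr (Pi.single j 1) (Pi.single k 1)
  have h2 := hr (Pi.single j 1) (Pi.single k I)
  simp only [bv_11 h, star_single, dot_single, star_one, Complex.star_def, conj_I, mul_one,
    one_mul, map_mul, map_sub, map_neg] at h1 h2
  have e := I_sq
  rw [Matrix.conjTranspose_apply, Complex.star_def]
  linear_combination (-I / 2) * h1 + (1 / 2) * h2 + (starRingEnd ℂ (w11 u k j) - w11 u j k) * e

theorem bv_11_I (h : ∀ a b, bv u (I • a) (I • b) = bv u a b) (v : Cm d) :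
    bv u v (I • v) = 2 * (v ⬝ᵥ w11 u *ᵥ star v) := by
  simp only [bv_11 h, star_smul, Matrix.mulVec_smul, dotProduct_smul, smul_dotProduct,
    smul_eq_mul, Complex.star_def, conj_I]
  linear_combination (-2 * (v ⬝ᵥ w11 u *ᵥ star v)) * I_sq

theorem w11_pos (h : ∀ a b, bv u (I • a) (I • b) = bv u a b)
    (hr : ∀ a b, star (bv u a b) = bv u a b) (hp : ∀ a, a ≠ 0 → 0 < bv u a (I • a)) :
    (w11 u).PosDef := by
  refine Matrix.posDef_iff_dotProduct_mulVec.2 ⟨w11_herm h hr, fun x hx => ?_⟩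
  have k := hp (star x) (star_ne_zero.2 hx)
  rw [bv_11_I h, star_star] at k
  exact pos_of_mul_pos_left (by rwa [mul_comm] at k) (by norm_num)

theorem dot_conj (A B C : Mx d) (v v' : Cm d) :
    (A *ᵥ v) ⬝ᵥ B *ᵥ (C *ᵥ v') = v ⬝ᵥ (Aᵀ * B * C) *ᵥ v' := by
  rw [← Matrix.mulVec_mulVec, ← Matrix.mulVec_mulVec, Matrix.dotProduct_mulVec v,
    Matrix.vecMul_transpose]

theorem star_mv (A : Mx d) (v : Cm d) : star (A *ᵥ v) = A.map (starRingEnd ℂ) *ᵥ star v :=
  F1bH.star_mv A v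

end pt

variable {V : Mf d} {u : Fs V} {e e' : Chart d V.X} {x : V.X}

theorem fd_jac (h : At e x) (h' : At e' x) (v : Cm d) :
    fderiv ℝ (trn e e') (e x) v = jacM e e' x *ᵥ v := by
  funext p
  have k := congrFun (cx_jc ((at_cd h h').differentiableAt (by simp)) v) (hl p)
  rw [Ka.cx_hl] at k
  rw [← k, show jc (trn e e') (e x) = _ from (g1T d V.X).jt_eq e e' x h h']
  simp [Matrix.vecMul, Matrix.mulVec, dotProduct, Ka.sum_idx, F1bH.blk_hh, F1bH.blk_ah, Ka.cx_hl,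
    mul_comm]

theorem blocks_ch (u : Fs V) (h : At e x) (h' : At e' x) :
    mhh (vl u e (e x)) = (jacM e e' x)ᵀ * mhh (vl u e' (e' x)) * jacM e e' x ∧
    mha (vl u e (e x)) =
      (jacM e e' x)ᵀ * mha (vl u e' (e' x)) * (jacM e e' x).map (starRingEnd ℂ) := by
  have k := blocks_of (u := vl u e (e x)) fun v v' => by
    rw [bv_ch u h h', fd_jac h h', fd_jac h h', bv_eq, star_mv, star_mv, dot_conj, dot_conj,
      dot_conj, dot_conj]
  exact ⟨k.1, k.2.1⟩

theorem dr_zero {f : Cm d → ℂ} {z : Cm d} (h : ∀ᶠ y in 𝓝 z, f y = 0) (a : Fin (d + d)) :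
    dr a f z = 0 := by
  have k : fderiv ℝ f z = 0 := by
    rw [Filter.EventuallyEq.fderiv_eq (f := fun _ => 0) h]
    simp
  refine F1bH.idx (P := fun a => dr a f z = 0) (fun i => ?_) (fun i => ?_) a
  · simp [Ka.dr_hl, dz, k]
  · simp [Ka.dr_ah, dzb, k]

/-- closed forms which are complex bilinear are holomorphic -/
theorem hol_of (hc : Cl2 V u) (h : ∀ e x, At e x → ∀ a, Jr (vl u e (e x)) a (I • a)) :
    IsHolTwoForm (fun e z => mhh (vl u e z) : Fld V) ∧ Is20 (fun e z => mhh (vl u e z)) u := by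
  refine ⟨⟨fun e x hx j k => P299.H954.analyticAt_of_dzb (ev_pt hx fun y hy => ?_),
    fun e x _ => mhh_skew _, fun e e' x hx hx' => (blocks_ch u hx hx').1⟩,
    fun e x hx => eq_f20 (cl_dg hc hx) (h e x hx)⟩
  have sm := (vl_isF u).sm e y hy
  refine ⟨(m2_cd sm _ _).differentiableAt (by simp), fun l => ?_⟩
  have k0 := closed_m2 (sm.differentiableAt (by simp)) (cl_dT hc hy) (ah l) (hl j) (hl k)
  have k1 : ∀ i, ∀ᶠ z in 𝓝 (e y), m2 (vl u e z) (ah l) (hl i) = 0 := fun i =>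
    ev_pt hy fun y' hy' => by
      rw [m2_skew, neg_eq_zero]
      exact congrFun (congrFun (typ20 (h e y' hy')).1 i) l
  rwa [dr_zero (k1 k), dr_zero (k1 j), sub_zero, add_zero, Ka.dr_ah] at k0

/-- closed real forms of type `(1,1)` -/
theorem r11_of (hc : Cl2 V u)
    (h : ∀ e x, At e x → ∀ a b, bv (vl u e (e x)) (I • a) (I • b) = bv (vl u e (e x)) a b)
    (hr : ∀ e x, At e x → ∀ a b, star (bv (vl u e (e x)) a b) = bv (vl u e (e x)) a b) :
    R11 (fun e z => w11 (vl u e z) : Fld V) ∧ Is11 (fun e z => w11 (vl u e z)) u := by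
  refine ⟨⟨⟨fun e x hx i j => contDiffAt_const.mul (m2_cd ((vl_isF u).sm e x hx) _ _),
    fun e e' x hx hx' => ?_, fun e x hx i k l => ?_⟩,
    fun e x hx => w11_herm (h e x hx) (hr e x hx)⟩, fun e x hx => eq_f11 (cl_dg hc hx) (h e x hx)⟩
  · simp only [w11, (blocks_ch u hx hx').2, Matrix.mul_smul, Matrix.smul_mul]
  · have sm := (vl_isF u).sm e x hx
    have k0 := closed_m2 (sm.differentiableAt (by simp)) (cl_dT hc hx) (hl i) (hl k) (ah l)
    have k1 : ∀ᶠ z in 𝓝 (e x), m2 (vl u e z) (hl i) (hl k) = 0 :=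
      ev_pt hx fun y' hy' => congrFun (congrFun (typ11 (h e y' hy')).1 i) k
    rw [dr_zero k1, add_zero, Ka.dr_hl, Ka.dr_hl, sub_eq_zero] at k0
    have k2 : ∀ a b c, dz a (fun z => w11 (vl u e z) b c) (e x) =
        -I * dz a (fun z => m2 (vl u e z) (hl b) (ah c)) (e x) := fun a b c =>
      C2.dz_const_mul a (-I) ((m2_cd sm _ _).differentiableAt (by simp))
    rw [k2, k2, k0]

/-- positive closed real forms of type `(1,1)` -/
theorem kah_of (hc : Cl2 V u)
    (h : ∀ e x, At e x → ∀ a b, bv (vl u e (e x)) (I • a) (I • b) = bv (vl u e (e x)) a b)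
    (hr : ∀ e x, At e x → ∀ a b, star (bv (vl u e (e x)) a b) = bv (vl u e (e x)) a b)
    (hp : ∀ e x, At e x → ∀ a, a ≠ 0 → 0 < bv (vl u e (e x)) a (I • a)) :
    IsKahler (fun e z => w11 (vl u e z) : Fld V) :=
  have k := (r11_of hc h hr).1
  ⟨⟨k.smooth, fun e x hx => w11_pos (h e x hx) (hr e x hx) (hp e x hx), k.form⟩,
    fun e x hx i j l => k.closed e x hx l i j⟩

/-- values of a pull-back -/
theorem bv_pb {Z : Mf d} {f : V.X → Z.X} {T : Fs Z → Fs V} (hf : Smo d d f) (hT : IsPb f T)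
    (v : Fs Z) {c : Chart d Z.X} (h : At e x) (h' : At c (f x)) (a b : Cm d) :
    bv (vl (T v) e (e x)) a b = bv (vl v c (c (f x)))
      (fderiv ℝ (fun z => c (f (e.symm z))) (e x) a)
      (fderiv ℝ (fun z => c (f (e.symm z))) (e x) b) := by
  rw [hT v e c x h h']
  exact bv_jc ((hf.sm e c x h h').differentiableAt (by simp)) _ _ _

theorem cl_pb {Z : Mf d} {f : V.X → Z.X} {T : Fs Z → Fs V} (hf : Smo d d f) (hT : IsPb f T)
    {v : Fs Z} (hv : Cl2 Z v) : Cl2 V (T v) := by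
  obtain ⟨⟨T', hT'⟩, h2, -, h4⟩ := pb1T d V.X d Z.X f hf
  obtain ⟨k1, k2, -⟩ := h4 T _ _ hT (dR_real V) (dR_real Z)
  refine ⟨?_, by rw [← k2, hv.2]⟩
  rw [← k1, hv.1, h2 T T' hT hT', map_zero]

end Vale.Agent.P301Z.Rot
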