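import Vale.Agent.P301Z.Rot.R1
import Vale.Agent.P301Z.An.All

/-!
# P301Z, rotation: the four statements
-/

open Vale.Agent.P301Z.Lat

namespace Vale.Agent.P301Z.Rot

theorem rot0' (hL : LAT) : ROT0 := rot0 An.cnn hL

theorem rot1' (hL : LAT) : ROT1 := rot1 An.cnn hL

end Vale.Agent.P301Z.Rot
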