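import Vale.Agent.P301Z.Rot.Alg
import Vale.Agent.P301.H450.HKC

/-!
# P301Z, rotation: the symplectic form of the new manifold, and the rotated structure
-/

open scoped Manifold ContDiff ComplexOrder Topology Matrix
open Filter Complex
open Vale.Agent.P272.K Vale.Agent.P272.K.C2 Vale.Agent.P299.IX Vale.Agent.P299.IX.Fock
open Vale.Agent.P281Z (Mf)
open Vale.Agent.P281Z.Hg Vale.Agent.P301Z.Lat
open Vale.Agent.P301.H599 (IsHolTwoForm)
open Vale.Agent.P301.H450 (IsHK)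

noncomputable section

namespace Vale.Agent.P301Z.Rot

variable {d : ℕ} {V : Mf d} {Om : Fs V}

theorem ex_at (x : V.X) : ∃ e : Chart d V.X, At e x :=
  ⟨_, chart_mem_atlas _ _, mem_chart_source _ _⟩

section mf

variable {H : Cov Om} {T : Fs V → Fs (mfOf H)} {e : Chart d V.X} {c : Chart d (mfOf H).X}
  {y : (mfOf H).X}

/-- the derivative of the old coordinates -/
def dM (H : Cov Om) (c : Chart d (mfOf H).X) (e : Chart d V.X) (y : (mfOf H).X) :
    Cm d →L[ℝ] Cm d := fderiv ℝ (trn (X := V.X) c e) (c y)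

/-- the derivative of the new coordinates -/
def dL (H : Cov Om) (c : Chart d (mfOf H).X) (e : Chart d V.X) (y : (mfOf H).X) :
    Cm d →L[ℝ] Cm d := fderiv ℝ (trn (X := V.X) e c) (e ((idOf H).symm y))

theorem dL_dM (hc : At c y) (he : At e ((idOf H).symm y)) (a : Cm d) :
    dL H c e y (dM H c e y a) = a :=
  trn_inv (X := V.X) hc.2 he.2 (hc.1 e y he hc.2).2.1 (hc.1 e y he hc.2).1 a

theorem dM_dL (hc : At c y) (he : At e ((idOf H).symm y)) (a : Cm d) :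
    dM H c e y (dL H c e y a) = a :=
  trn_inv (X := V.X) he.2 hc.2 (hc.1 e y he hc.2).1 (hc.1 e y he hc.2).2.1 a

theorem bv_mf (hT : IsPb (idOf H).symm T) (v : Fs V) (hc : At c y) (he : At e ((idOf H).symm y))
    (a b : Cm d) : bv (vl (T v) c (c y)) a b =
      bv (vl v e (e ((idOf H).symm y))) (dM H c e y a) (dM H c e y b) :=
  bv_pb (smo_idOf_symm H) hT v hc he a b

theorem jr_mf (hc : At c y) (he : At e ((idOf H).symm y)) (a : Cm d) :
    Jr (vl Om e (e ((idOf H).symm y))) (dM H c e y a) (dM H c e y (I • a)) := by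
  obtain ⟨a', ha⟩ := H.cs e _ he (dM H c e y a)
  have k : dL H c e y a' = I • dL H c e y (dM H c e y a) := (hc.1 e y he hc.2).2.2 _ _ ha
  rw [dL_dM hc he] at k
  rwa [← k, dM_dL hc he]

theorem jr_T (hT : IsPb (idOf H).symm T) (hc : At c y) (a : Cm d) :
    Jr (vl (T Om) c (c y)) a (I • a) := fun b => by
  obtain ⟨e, he⟩ := ex_at ((idOf H).symm y)
  rw [bv_mf hT Om hc he, bv_mf hT Om hc he, jr_mf hc he]

/-- the holomorphic symplectic form of the new manifold -/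
theorem mks (hT : IsPb (idOf H).symm T) (hc : Cl2 V Om)
    (nd : ∀ e x, At e x → ∀ a, (∀ b, bv (vl Om e (e x)) a b = 0) → a = 0) :
    IsHolTwoForm (fun c z => mhh (vl (T Om) c z) : Fld (mfOf H)) ∧
      Is20 (fun c z => mhh (vl (T Om) c z)) (T Om) ∧ Cl2 (mfOf H) (T Om) ∧
      ∀ c y, At c y → (mhh (vl (T Om) c (c y))).det ≠ 0 := by
  have k := cl_pb (smo_idOf_symm H) hT hc
  obtain ⟨k1, k2⟩ := hol_of k fun c y h => jr_T hT h
  refine ⟨k1, k2, k, fun c y h h0 => ?_⟩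
  obtain ⟨v, hv, hv0⟩ := Matrix.exists_vecMul_eq_zero_iff.2 h0
  obtain ⟨e, he⟩ := ex_at ((idOf H).symm y)
  have k3 := nd e _ he (dM H c e y v) fun b => by
    rw [← dM_dL h he b, ← bv_mf hT Om h he, bv_20 (jr_T hT h), Matrix.dotProduct_mulVec, hv0,
      zero_dotProduct]
  refine hv ?_
  rw [← dL_dM h he v, k3, map_zero]

end mf

/-- the compatibility relation implies that the metric is Ricci flat -/
theorem isHK_of_rel [ConnectedSpace V.X] {s w : Fld V} {κ : ℝ} (hκ : 0 < κ) (hw : IsKahler w)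
    (hs : IsHolTwoForm s) (hd : ∀ e x, At e x → (s e (e x)).det ≠ 0)
    (h : ∀ e x, At e x → w e (e x) * ((s e (e x))ᴴ)⁻¹ * (w e (e x))ᵀ = (κ : ℂ) • s e (e x)) :
    IsHK s w κ := by
  refine ⟨hκ, hw, fun e x hx => ?_, h⟩
  have k : (fun z => Real.log (w e z).det.re) =ᶠ[𝓝 (e x)]
      fun z => Real.log ‖(s e z).det‖ + Real.log (κ ^ d) / 2 := ev_pt hx fun y hy => by
    have k1 := P301.H450.det_rel (hw.posDef e y hy) (isUnit_iff_ne_zero.2 (hd e y hy)) (h e y hy)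
    have k2 := congrArg Real.log k1
    rw [Real.log_mul (pow_pos hκ d).ne' (pow_ne_zero _ (norm_ne_zero_iff.2 (hd e y hy))),
      Real.log_pow, Real.log_pow _ 2] at k2
    push_cast at k2
    linarith
  have k3 : P299.D.ric w e (e x) = 0 := by
    rw [P299.D.ric, C2.cHess_congr k, C2.cHess_add (((P301.H450.isCanonical_s hs hd).smooth e x
      hx).of_le (by norm_cast)) contDiffAt_const, P301.H450.cHess_log_det_s hs hd hx, C2.cHess_const]
    simp
  rw [k3]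
  exact Matrix.PosSemidef.zero

/-- **rotation** of a hyperkaehler structure -/
theorem rot_mf (hN : An.CNN) [ConnectedSpace V.X] {s w : Fld V} {σ om : Fs V}
    (hs : IsHolTwoForm s) (hd : ∀ e x, At e x → (s e (e x)).det ≠ 0) (hk : IsHK s w 1)
    (h1 : Is20 s σ) (c1 : Cl2 V σ) (h2 : Is11 w om) (c2 : Cl2 V om) :
    ∃ (Z : Mf d) (φ : V.X ≃ₜ Z.X) (s' w' : Fld Z) (T : Fs V →ₗ[ℂ] Fs Z), Smo d d φ ∧
      Smo d d φ.symm ∧ IsPb φ.symm T ∧ IsHolTwoForm s' ∧
      (∀ e x, At e x → (s' e (e x)).det ≠ 0) ∧ IsHK s' w' 1 ∧ R11 w' ∧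
      Is20 s' (T ((2 : ℂ)⁻¹ • (om - σ + (dR V).cj σ))) ∧ Is11 w' (T (σ + (dR V).cj σ)) := by
  have c3 : Cl2 V ((dR V).cj σ) :=
    ⟨by rw [← (dR_ok V).cjd, c1.1, map_zero], by rw [← (dR_ok V).cjdg, c1.2]⟩
  have cO : Cl2 V ((2 : ℂ)⁻¹ • (om - σ + (dR V).cj σ)) :=
    ⟨by simp [c1.1, c2.1, c3.1], by simp only [map_smul, map_add, map_sub, c1.2, c2.2, c3.2]⟩
  have cC : Cl2 V (σ + (dR V).cj σ) := ⟨by simp [c1.1, c3.1], by simp only [map_add, c1.2, c3.2]⟩
  have vO : ∀ e x, At e x → ∀ a b, bv (vl ((2 : ℂ)⁻¹ • (om - σ + (dR V).cj σ)) e (e x)) a b =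
      2⁻¹ * bv (rO (w e (e x)) (s e (e x))) a b := fun e x hx a b => by
    rw [vl_smul, vl_add, vl_sub, (dR_real V).cj σ e x hx, h1 e x hx, h2 e x hx, bv_smul]
    rfl
  have vC : ∀ e x, At e x → vl (σ + (dR V).cj σ) e (e x) = rC (s e (e x)) := fun e x hx => by
    rw [vl_add, (dR_real V).cj σ e x hx, h1 e x hx]
    rfl
  generalize (2 : ℂ)⁻¹ • (om - σ + (dR V).cj σ) = Om at cO vO ⊢
  generalize σ + (dR V).cj σ = C at cC vC ⊢
  have hw := hk.kahler.posDef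
  have hq : ∀ e x, At e x → ∃ Q, Qt (w e (e x)) (s e (e x)) Q := fun e x hx =>
    qt_of_rel (hw e x hx).isHermitian (hs.alt e x hx) (hd e x hx) (by simpa using hk.rel e x hx)
  have nd : ∀ e x, At e x → ∀ a, (∀ b, bv (vl Om e (e x)) a b = 0) → a = 0 := fun e x hx a ha =>
    nd_rO (hw e x hx) (hs.alt e x hx) a fun b => by simpa [vO e x hx] using ha b
  have jr : ∀ e x, At e x → ∀ Q, Qt (w e (e x)) (s e (e x)) Q → ∀ a,
      Jr (vl Om e (e x)) a (-Q a) := fun e x hx Q hQ a b => by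
    rw [vO e x hx, vO e x hx, jr_rO (hw e x hx).isHermitian (hs.alt e x hx) hQ]
    ring
  have H : Cov Om := cov_of_cnn hN cO nd fun e x hx a =>
    (hq e x hx).elim fun Q hQ => ⟨_, jr e x hx Q hQ a⟩
  obtain ⟨T, hT⟩ := (pb1T d (mfOf H).X d V.X _ (smo_idOf_symm H)).1
  obtain ⟨m1, m2, -, m4⟩ := mks hT cO nd
  have key : ∀ c y, At c y → ∃ (e : Chart d V.X) (Q : Cm d → Cm d), At e ((idOf H).symm y) ∧
      Qt (w e (e ((idOf H).symm y))) (s e (e ((idOf H).symm y))) Q ∧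
      ∀ a, dM H c e y (I • a) = -Q (dM H c e y a) := fun c y h => by
    obtain ⟨e, he⟩ := ex_at ((idOf H).symm y)
    obtain ⟨Q, hQ⟩ := hq e _ he
    exact ⟨e, Q, he, hQ, fun a => jr_uniq (nd e _ he) (jr_mf h he a) (jr e _ he Q hQ _)⟩
  have p1 : ∀ c y, At c y → ∀ a b,
      bv (vl (T C) c (c y)) (I • a) (I • b) = bv (vl (T C) c (c y)) a b := fun c y h a b => by
    obtain ⟨e, Q, he, hQ, hM⟩ := key c y h
    rw [bv_mf hT C h he, bv_mf hT C h he, vC e _ he, hM, hM,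
      rC_J (hw e _ he).isHermitian (hs.alt e _ he) hQ]
  have p2 : ∀ c y, At c y → ∀ a b,
      star (bv (vl (T C) c (c y)) a b) = bv (vl (T C) c (c y)) a b := fun c y h a b => by
    obtain ⟨e, Q, he, -⟩ := key c y h
    rw [bv_mf hT C h he, vC e _ he, rC_real (hs.alt e _ he)]
  have p3 : ∀ c y, At c y → ∀ a, a ≠ 0 → 0 < bv (vl (T C) c (c y)) a (I • a) := fun c y h a ha => by
    obtain ⟨e, Q, he, hQ, hM⟩ := key c y h
    rw [bv_mf hT C h he, vC e _ he, hM]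
    refine rC_pos (hw e _ he) (hs.alt e _ he) hQ fun h0 => ha ?_
    rw [← dL_dM h he a, h0, map_zero]
  have cT := cl_pb (smo_idOf_symm H) hT cC
  have kw := kah_of cT p1 p2 p3
  have : ConnectedSpace (mfOf H).X := ‹ConnectedSpace V.X›
  refine ⟨mfOf H, idOf H, _, _, T, smo_idOf H, smo_idOf_symm H, hT, m1, m4,
    isHK_of_rel one_pos kw m1 m4 fun c y h => ?_, (r11_of cT p1 p2).1, m2, (r11_of cT p1 p2).2⟩
  obtain ⟨e, Q, he, hQ, hM⟩ := key c y h
  rw [Complex.ofReal_one, one_smul]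
  refine rel_of_qt (T := fun b => dL H c e y (-I • dM H c e y b)) (kw.posDef c y h).isHermitian
    (mhh_skew _) (m4 c y h) ⟨fun b => dotProduct_eq _ _ fun a => ?_, fun b => ?_⟩
  · have k := hh_w11 (p1 c y h) a (dL H c e y (-I • dM H c e y b))
    rw [bv_mf hT C h he, bv_mf hT C h he, vC e _ he, hM, dM_dL h he,
      rC_rO (hw e _ he).isHermitian (hs.alt e _ he) hQ] at k
    rw [dotProduct_comm, dotProduct_comm _ a, ← bv_20 (jr_T hT h), bv_mf hT Om h he, vO e _ he, ← k,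
      ← mul_assoc, inv_mul_cancel₀ two_ne_zero, one_mul]
    rfl
  · show dL H c e y (-I • dM H c e y (dL H c e y _)) = _
    rw [dM_dL h he, smul_smul, neg_mul_neg, I_mul_I, neg_one_smul, map_neg, dL_dM h he]

end Vale.Agent.P301Z.Rot
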