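import Vale.Agent.P301Z.Rot.Mks
import Vale.Agent.P301Z.Lat.Pk
import Vale.Agent.P301Z.Top0

/-!
# P301Z, rotation: existence, classes, symmetry
-/

open scoped Manifold ContDiff ComplexOrder Topology Matrix
open Filter Complex
open Vale.Agent.P272.K Vale.Agent.P299.IX Vale.Agent.P299.IX.Fock
open Vale.Agent.P281Z (Mf)
open Vale.Agent.P281Z.Hg Vale.Agent.P301Z.Lat
open Vale.Agent.P301.H599 (IsHolTwoForm)
open Vale.Agent.P301.H450 (IsHK)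

noncomputable section

namespace Vale.Agent.P301Z.Rot

section pb

variable {d : ℕ} {V Z : Mf d} {f : V.X → Z.X} {g : Z.X → V.X} {T : Fs Z → Fs V} {T' : Fs V → Fs Z}

theorem pb_ex (hf : Smo d d f) : ∃ T : Fs Z →ₗ[ℂ] Fs V, IsPb f T := (pb1T d V.X d Z.X f hf).1

theorem pb_lin (hf : Smo d d f) (hT : IsPb f T) : ∃ T₀ : Fs Z →ₗ[ℂ] Fs V, T = T₀ :=
  (pb_ex hf).imp fun T₀ h => (pb1T d V.X d Z.X f hf).2.1 T T₀ hT h

theorem pb_cj (hf : Smo d d f) (hT : IsPb f T) (u : Fs Z) : T ((dR Z).cj u) = (dR V).cj (T u) :=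
  ((pb1T d V.X d Z.X f hf).2.2.2 T _ _ hT (dR_real V) (dR_real Z)).2.2.1 u

theorem pb_comp {W : Mf d} {h : Z.X → W.X} {S : Fs W → Fs Z} (hf : Smo d d f) (hh : Smo d d h)
    (hT : IsPb f T) (hS : IsPb h S) : Smo d d (h ∘ f) ∧ IsPb (h ∘ f) (T ∘ S) :=
  have k := (pbc d V.X d Z.X f1a k1b').2.2 d W.X f h hf hh
  ⟨k.1, k.2 T S hT hS⟩

theorem pb_inv (hf : Smo d d f) (hg : Smo d d g) (h : Function.LeftInverse g f) (hT : IsPb f T)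
    (hT' : IsPb g T') (u : Fs V) : T (T' u) = u := by
  obtain ⟨k1, k2⟩ := pb_comp hf hg hT hT'
  have k : g ∘ f = id := funext h
  rw [k] at k1 k2
  exact congrFun ((pb1T d V.X d V.X id k1).2.1 _ _ k2 (pbc d V.X d V.X f1a k1b').1) u

theorem cl_om {w : Fld V} {a : Fs V} (hw : IsKahler w) (h : Is11 w a) : Cl2 V a :=
  ((g2T d V.X).2.2 _ (dR_real V)).2.1 w a hw h

theorem cj_om {w : Fld V} {a : Fs V} (hw : IsKahler w) (h : Is11 w a) : (dR V).cj a = a := by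
  refine ext_F fun e x hx => bv_ext ((cl_om hw h).cj.dg hx) ((cl_om hw h).dg hx) fun v v' => ?_
  have k := hh_star (hw.posDef e x hx).isHermitian
  rw [vl_cj a hx, bv_cjv, h.val hx, bv_f11]
  show star (I * (hh _ v v' - hh _ v' v)) = I * (hh _ v v' - hh _ v' v)
  rw [star_mul', star_sub, k, k, Complex.star_def, conj_I]
  ring

end pb

variable {n r : ℕ} {B : BB n r} {Y Z : MK B}

theorem mor_inv {f : Y.V.X → Z.V.X} {g : Z.V.X → Y.V.X} (hf : Smo (n + n) (n + n) f)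
    (h : Z.Mor Y g) (hi : Function.LeftInverse f g) : Y.Mor Z f := by
  refine ⟨hf, fun T hT u hu => ?_⟩
  obtain ⟨T', hT'⟩ := pb_ex h.1
  rw [← h.2 T' hT' _ (cl_pb hf hT hu), pb_inv h.1 hf hi hT' hT]

theorem mor_comp {W : MK B} {f : Y.V.X → Z.V.X} {g : Z.V.X → W.V.X} (hf : Y.Mor Z f)
    (hg : Z.Mor W g) : Y.Mor W (g ∘ f) := by
  obtain ⟨T, hT⟩ := pb_ex hf.1
  obtain ⟨S, hS⟩ := pb_ex hg.1
  obtain ⟨k1, k2⟩ := pb_comp hf.1 hg.1 hT hS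
  refine ⟨k1, fun R hR u hu => ?_⟩
  rw [(pb1T _ Y.V.X _ W.V.X _ k1).2.1 R _ hR k2, Function.comp_apply,
    hf.2 T hT _ (cl_pb hg.1 hS hu), hg.2 S hS u hu]

theorem conn (Y : MK B) : ConnectedSpace Y.V.X :=
  have := Y.sc
  inferInstance

/-- the rotation with named forms -/
def RotW (Y : MK B) (s w : Fld Y.V) (Z : MK B) (s' w' : Fld Z.V) : Prop :=
  IsHK s w 1 ∧ ∃ (g : Y.V.X → Z.V.X) (g' : Z.V.X → Y.V.X) (u a : Fs Y.V)
    (u' a' : Fs Z.V) (T : Fs Z.V → Fs Y.V), Function.LeftInverse g' g ∧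
    Function.RightInverse g' g ∧ Y.Mor Z g ∧ Z.Mor Y g' ∧ IsHolTwoForm s' ∧
    (∀ e x, At e x → (s' e (e x)).det ≠ 0) ∧ IsHK s' w' 1 ∧ Is20 s u ∧ Is11 w a ∧ Is20 s' u' ∧
    Is11 w' a' ∧ IsPb g T ∧ T a' = u + (dR Y.V).cj u ∧ (2 : ℂ) • T u' = a - u + (dR Y.V).cj u

variable {s w : Fld Y.V} {s' w' : Fld Z.V}

theorem rot_iff : Rot Y s w Z ↔ ∃ s' w', RotW Y s w Z s' w' :=
  ⟨fun ⟨h, g, g', s', w', k⟩ => ⟨s', w', h, g, g', k⟩,
    fun ⟨s', w', h, g, g', k⟩ => ⟨h, g, g', s', w', k⟩⟩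

/-- the rotation is an involution -/
theorem RotW.symm (h : RotW Y s w Z s' w') (hs : IsHolTwoForm s)
    (hd : ∀ e x, At e x → (s e (e x)).det ≠ 0) : RotW Z s' w' Y s w := by
  obtain ⟨h0, g, g', u, a, u', a', T, i1, i2, m1, m2, -, -, hk, h1, h2, h3, h4, hT, e1, e2⟩ := h
  obtain ⟨T', hT'⟩ := pb_ex m2.1
  have inv := pb_inv m2.1 m1.1 i2 hT' hT
  have cj := pb_cj m1.1 hT u'
  obtain ⟨T, rfl⟩ := pb_lin m1.1 hT
  have e3 := congrArg (dR Y.V).cj e2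
  rw [map_smulₛₗ, map_add, map_sub, cj_om h0.kahler h2, (dR_ok _).cjcj, ← cj, map_ofNat] at e3
  refine ⟨hk, g', g, u', a', u, a, T', i2, i1, m2, m1, hs, hd, h0, h3, h4, h1, h2, hT', ?_, ?_⟩
  · rw [← inv (u' + _), map_add]
    refine congrArg T' ?_
    linear_combination (norm := module) (-(2 : ℂ)⁻¹) • e2 + (-(2 : ℂ)⁻¹) • e3
  · rw [← inv (a' - u' + _), map_add, map_sub, ← map_smul]
    refine congrArg T' ?_
    linear_combination (norm := module) -e1 + (2 : ℂ)⁻¹ • e2 - (2 : ℂ)⁻¹ • e3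

theorem RotW.cls (h : RotW Y s w Z s' w') {p : Fin r → ℂ} {k : Fin r → ℝ} (hs : Y.Sym s p)
    (hw : Y.Kc w k) : IsHK s' w' 1 ∧ Z.Sym s' ((2 : ℂ)⁻¹ • (rc k - p + star p)) ∧
      Z.Kc w' fun i => 2 * (p i).re := by
  obtain ⟨-, g, g', u, a, u', a', T, -, i2, m1, m2, k1, k2, hk, h1, h2, h3, h4, hT, e1, e2⟩ := h
  obtain ⟨⟨-, u₀, b1, b2, rfl⟩, -⟩ := hs
  obtain ⟨-, -, a₀, c1, c2, c3⟩ := hw
  obtain rfl := h1.uniq b1
  obtain rfl := h2.uniq c1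
  obtain ⟨T', hT'⟩ := pb_ex m2.1
  have e3 : T u' = (2 : ℂ)⁻¹ • (a - u + (dR Y.V).cj u) := by
    rw [← e2, smul_smul, inv_mul_cancel₀ two_ne_zero, one_smul]
  have cu : Cl2 Z.V u' := by
    rw [← pb_inv m2.1 m1.1 i2 hT' hT u', e3]
    exact cl_pb m2.1 hT' (((c2.sub b2).add b2.cj).smul _)
  have ca := cl_om hk.kahler h4
  refine ⟨hk, ⟨⟨k1, u', h3, cu, ?_⟩, k2⟩, hk.kahler, R11.kahler hk.kahler, a', h4, ca, ?_⟩
  · rw [← m1.2 T hT u' cu, e3, map_smul, map_add, map_sub, c3, Y.m.cj u b2]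
  · rw [← m1.2 T hT a' ca, e1, map_add, Y.m.cj u b2]
    funext i
    simp [rc, Complex.add_conj]

theorem rotc : ROTC := fun _ _ _ _ _ _ _ _ _ hs hw h =>
  (rot_iff.1 h).imp fun _ h => h.imp fun _ h => h.cls hs hw

theorem rotW_ex (hN : An.CNN) (hL : LAT) {p : Fin r → ℂ} {k : Fin r → ℝ} (hs : Y.Sym s p)
    (hw : Y.Kc w k) (hk : IsHK s w 1) : ∃ (Z : MK B) (s' w' : Fld Z.V), RotW Y s w Z s' w' := by
  obtain ⟨⟨b0, u, b1, b2, -⟩, hd⟩ := hs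
  obtain ⟨-, -, a, c1, c2, -⟩ := hw
  have := conn Y
  obtain ⟨V, φ, s', w', T', f1, f2, hT', k1, k2, k3, -, k4, k5⟩ := rot_mf hN b0 hd hk b1 b2 c1 c2
  have ori : Ori (n + n) φ.symm := hL.vol.ori (u := u + (dR Y.V).cj u) f2 hT' (fun e x hx => by
    rw [vl_add, vl_cj u hx, b1 e x hx]
    exact hL.pwc.ss _ (b0.alt e x hx) (hd e x hx)) fun e x hx => by
      rw [k5.val hx, hL.pwb.det]
      exact (k3.kahler.posDef e x hx).det_pos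
  obtain ⟨sc, m, hf, mo⟩ := hL.tr Y V φ.symm f2 f1 ori
  obtain ⟨T, hT⟩ := pb_ex f1
  have inv := pb_inv f1 f2 φ.symm_apply_apply hT hT'
  refine ⟨⟨V, sc, m, hf⟩, s', w', hk, φ, φ.symm, u, a, _, _, T, φ.symm_apply_apply,
    φ.apply_symm_apply, mor_inv f1 mo φ.apply_symm_apply, mo, k1, k2, k3, b1, c1, k4, k5, hT,
    inv _, ?_⟩
  rw [inv, smul_smul, mul_inv_cancel₀ two_ne_zero, one_smul]

theorem rot0 (hN : An.CNN) (hL : LAT) : ROT0 := fun _ _ _ _ _ _ _ _ h hk =>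
  (rotW_ex hN hL h.1 h.2.1 hk).imp fun _ => rot_iff.2

end Vale.Agent.P301Z.Rot
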