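import Vale.Agent.P301Z.Rot.R0

/-!
# P301Z, rotation: the symplectic form determines the rotation
-/

open scoped Manifold ContDiff ComplexOrder Topology Matrix
open Filter Complex
open Vale.Agent.P272.K Vale.Agent.P299.IX Vale.Agent.P299.IX.Fock
open Vale.Agent.P281Z (Mf HolM)
open Vale.Agent.P281Z.Hg Vale.Agent.P301Z.Lat
open Vale.Agent.P301.H599 (IsHolTwoForm)
open Vale.Agent.P301.H450 (IsHK)

noncomputable section

namespace Vale.Agent.P301Z.Rot

section df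

variable {d : ℕ} {V Z : Mf d} {f : V.X → Z.X} {g : Z.X → V.X} {e : Chart d V.X} {c : Chart d Z.X}
  {x : V.X}

/-- the derivative in two charts -/
def dF (f : V.X → Z.X) (e : Chart d V.X) (c : Chart d Z.X) (x : V.X) : Cm d →L[ℝ] Cm d :=
  fderiv ℝ (fun z => c (f (e.symm z))) (e x)

theorem dF_inv (hf : Smo d d f) (hg : Smo d d g) (h : Function.LeftInverse g f) (he : At e x)
    (hc : At c (f x)) (v : Cm d) : dF g c e (f x) (dF f e c x v) = v := by
  have d1 := (hf.sm e c x he hc).differentiableAt (by simp)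
  have d2 := (hg.sm c e (f x) hc (by rwa [h x])).differentiableAt (by simp)
  have k0 : c (f x) = c (f (e.symm (e x))) := by rw [e.left_inv he.2]
  have k1 : ∀ᶠ z in 𝓝 (e x), f (e.symm z) ∈ c.source :=
    (hf.cont.continuousAt.comp (e.continuousAt_symm (e.map_source he.2))).eventually_mem
      (by rw [Function.comp_apply, e.left_inv he.2]; exact c.open_source.mem_nhds hc.2)
  have k2 : (fun z => e (g (c.symm (c (f (e.symm z)))))) =ᶠ[𝓝 (e x)] id := by
    filter_upwards [k1, e.eventually_right_inverse' he.2] with z h1 h2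
    rw [c.left_inv h1, h, h2, id]
  rw [k0] at d2
  have k3 := fderiv_fun_comp (g := fun z => e (g (c.symm z))) (f := fun z => c (f (e.symm z)))
    (e x) d2 d1
  rw [k2.fderiv_eq, fderiv_id, ← k0] at k3
  exact (congrArg (fun A => A v) k3).symm

theorem bv_dF {T : Fs Z → Fs V} (hf : Smo d d f) (hT : IsPb f T) (v : Fs Z) (h : At e x)
    (h' : At c (f x)) (a b : Cm d) : bv (vl (T v) e (e x)) a b =
      bv (vl v c (c (f x))) (dF f e c x a) (dF f e c x b) := bv_pb hf hT v h h' a b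

theorem dF_hol (hf : HolM d d f) (he : At e x) (hc : At c (f x)) (v : Cm d) :
    dF f e c x v = P299.D.jacF f e c x *ᵥ v := by
  have k := (hf.at x).an he hc
  have k1 := k.differentiableAt.restrictScalars ℝ
  funext p
  have k2 : dF f e c x v p = fderiv ℝ (fun z => c (f (e.symm z)) p) (e x) v := by
    rw [fderiv_apply k1]
    rfl
  have k3 := (P299.H954.dzb_of_analyticAt (analyticAt_pi_iff.1 k p)).self_of_nhds
  rw [k2, Ka.fd, Ka.sum_idx]
  simp [Ka.dr_hl, Ka.dr_ah, Ka.cx_hl, k3, Matrix.mulVec, dotProduct, P299.D.jacF, mul_comm]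

theorem det_ne_iff {S : Mx d} : S.det ≠ 0 ↔ ∀ a, (∀ b, ss S a b = 0) → a = 0 := by
  rw [Ne, ← Matrix.exists_vecMul_eq_zero_iff]
  refine ⟨fun h a ha => by_contra fun h0 => h ⟨a, h0, dotProduct_eq _ _ fun b => ?_⟩,
    fun h ⟨a, h0, ha⟩ => h0 (h a fun b => ?_)⟩
  · rw [← Matrix.dotProduct_mulVec, zero_dotProduct]
    exact ha b
  · rw [ss, Matrix.dotProduct_mulVec, ha, zero_dotProduct]

theorem bv_is20 {s : Fld V} {u : Fs V} (hs : IsHolTwoForm s) (hu : Is20 s u) (h : At e x)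
    (a b : Cm d) : bv (vl u e (e x)) a b = ss (s e (e x)) a b := by
  rw [hu e x h, bv_f20 (hs.alt e x h)]
  rfl

theorem bv_is11 {w : Fld V} {u : Fs V} (hu : Is11 w u) (h : At e x) (a b : Cm d) :
    bv (vl u e (e x)) a b = I * (hh (w e (e x)) a b - hh (w e (e x)) b a) := by
  rw [hu.val h, bv_f11]
  rfl

theorem ss_smul_l {s : Mx d} (c : ℂ) (a b : Cm d) : ss s (c • a) b = c * ss s a b := by
  rw [ss, ss, smul_dotProduct, smul_eq_mul]

/-- the second half of the rotation follows from the first -/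
theorem rtu_mf [ConnectedSpace Z.X] {s w : Fld V} {s' : Fld Z} {u a : Fs V} {u' : Fs Z}
    {T : Fs Z → Fs V} {T' : Fs V → Fs Z} (hs : IsHolTwoForm s)
    (hd : ∀ e x, At e x → (s e (e x)).det ≠ 0) (hk : IsHK s w 1) (h1 : Is20 s u) (c1 : Cl2 V u)
    (h2 : Is11 w a) (hf : Smo d d f) (hg : Smo d d g) (i1 : Function.LeftInverse g f)
    (i2 : Function.LeftInverse f g) (hT : IsPb f T) (hT' : IsPb g T') (hs' : IsHolTwoForm s')
    (h3 : Is20 s' u') (e2 : (2 : ℂ) • T u' = a - u + (dR V).cj u) :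
    (∀ e x, At e x → (s' e (e x)).det ≠ 0) ∧
      ∃ w', IsHK s' w' 1 ∧ Is11 w' (T' (u + (dR V).cj u)) := by
  have vO : ∀ e x, At e x → ∀ a b, 2 * bv (vl (T u') e (e x)) a b =
      bv (rO (w e (e x)) (s e (e x))) a b := fun e x hx a b => by
    rw [← bv_smul, ← vl_smul, e2, vl_add, vl_sub, vl_cj u hx, h1 e x hx, h2.val hx]
    rfl
  have vC : ∀ e x, At e x → vl (u + (dR V).cj u) e (e x) = rC (s e (e x)) := fun e x hx => by
    rw [vl_add, vl_cj u hx, h1 e x hx]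
    rfl
  have cT := cl_pb hg hT' (c1.add c1.cj)
  generalize u + (dR V).cj u = C at cT vC ⊢
  have hw := hk.kahler.posDef
  have key : ∀ c y, At c y → ∃ (e : Chart d V.X) (Q : Cm d → Cm d) (L : Cm d →L[ℝ] Cm d),
      At e (g y) ∧ Qt (w e (e (g y))) (s e (e (g y))) Q ∧ (∀ a, L (dF g c e y a) = a) ∧
      (∀ a, dF g c e y (L a) = a) ∧ (∀ a b, 2 * ss (s' c (c y)) a b =
        bv (rO (w e (e (g y))) (s e (e (g y)))) (dF g c e y a) (dF g c e y b)) ∧
      ∀ a, dF g c e y (I • a) = -Q (dF g c e y a) := fun c y h => by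
    obtain ⟨e, he⟩ := ex_at (g y)
    obtain ⟨Q, hQ⟩ := qt_of_rel (hw e _ he).isHermitian (hs.alt e _ he) (hd e _ he)
      (by simpa using hk.rel e _ he)
    have k1 := dF_inv hf hg i1 he (by rwa [i2 y])
    rw [i2 y] at k1
    have k2 : ∀ a b, 2 * ss (s' c (c y)) a b =
        bv (rO (w e (e (g y))) (s e (e (g y)))) (dF g c e y a) (dF g c e y b) := fun a b => by
      rw [← vO e _ he, ← bv_dF hg hT' _ h he, pb_inv hg hf i2 hT' hT, bv_is20 hs' h3 h]
    refine ⟨e, Q, dF f e c (g y), he, hQ, dF_inv hg hf i2 h he, k1, k2, fun a => jr_uniq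
      (nd_rO (hw e _ he) (hs.alt e _ he)) (fun b => ?_)
      (jr_rO (hw e _ he).isHermitian (hs.alt e _ he) hQ _)⟩
    rw [← k1 b, ← k2, ← k2, ss_smul_l, mul_left_comm]
  have m4 : ∀ c y, At c y → (s' c (c y)).det ≠ 0 := fun c y h => det_ne_iff.2 fun a ha => by
    obtain ⟨e, Q, L, he, -, l1, l2, k2, -⟩ := key c y h
    rw [← l1 a, nd_rO (hw e _ he) (hs.alt e _ he) (dF g c e y a) fun b => by
      rw [← l2 b, ← k2, ha, mul_zero], map_zero]
  have p1 : ∀ c y, At c y → ∀ a b,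
      bv (vl (T' C) c (c y)) (I • a) (I • b) = bv (vl (T' C) c (c y)) a b := fun c y h a b => by
    obtain ⟨e, Q, L, he, hQ, -, -, -, hM⟩ := key c y h
    rw [bv_dF hg hT' C h he, bv_dF hg hT' C h he, vC e _ he, hM, hM,
      rC_J (hw e _ he).isHermitian (hs.alt e _ he) hQ]
  have p2 : ∀ c y, At c y → ∀ a b,
      star (bv (vl (T' C) c (c y)) a b) = bv (vl (T' C) c (c y)) a b := fun c y h a b => by
    obtain ⟨e, Q, L, he, -⟩ := key c y h
    rw [bv_dF hg hT' C h he, vC e _ he, rC_real (hs.alt e _ he)]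
  have p3 : ∀ c y, At c y → ∀ a, a ≠ 0 → 0 < bv (vl (T' C) c (c y)) a (I • a) :=
    fun c y h a ha => by
      obtain ⟨e, Q, L, he, hQ, l1, -, -, hM⟩ := key c y h
      rw [bv_dF hg hT' C h he, vC e _ he, hM]
      refine rC_pos (hw e _ he) (hs.alt e _ he) hQ fun h0 => ha ?_
      rw [← l1 a, h0, map_zero]
  have kw := kah_of cT p1 p2 p3
  refine ⟨m4, _, isHK_of_rel one_pos kw hs' m4 fun c y h => ?_, (r11_of cT p1 p2).2⟩
  obtain ⟨e, Q, L, he, hQ, l1, l2, k2, hM⟩ := key c y h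
  rw [Complex.ofReal_one, one_smul]
  refine rel_of_qt (T := fun b => L (-I • dF g c e y b)) (kw.posDef c y h).isHermitian
    (hs'.alt c y h) (m4 c y h) ⟨fun b => dotProduct_eq _ _ fun a => ?_, fun b => ?_⟩
  · have k := hh_w11 (p1 c y h) a (L (-I • dF g c e y b))
    rw [bv_dF hg hT' C h he, bv_dF hg hT' C h he, vC e _ he, hM, l2,
      rC_rO (hw e _ he).isHermitian (hs.alt e _ he) hQ, ← k2] at k
    rw [dotProduct_comm, dotProduct_comm _ a]
    exact (mul_left_cancel₀ two_ne_zero k).symm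
  · show L (-I • dF g c e y (L _)) = _
    rw [l2, smul_smul, neg_mul_neg, I_mul_I, neg_one_smul, map_neg, l1]

end df

variable {n r : ℕ} {B : BB n r}

/-- **RTU** -/
theorem rtu {Y Z : MK B} {s w : Fld Y.V} {s' : Fld Z.V} {p : Fin r → ℂ} {g : Y.V.X → Z.V.X}
    {g' : Z.V.X → Y.V.X} {u a : Fs Y.V} {u' : Fs Z.V} {T : Fs Z.V → Fs Y.V} (hs : Y.Sym s p)
    (hk : IsHK s w 1) (i1 : Function.LeftInverse g' g) (i2 : Function.RightInverse g' g)
    (m1 : Y.Mor Z g) (m2 : Z.Mor Y g') (hs' : IsHolTwoForm s') (h3 : Is20 s' u') (h1 : Is20 s u)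
    (h2 : Is11 w a) (hT : IsPb g T) (e2 : (2 : ℂ) • T u' = a - u + (dR Y.V).cj u) :
    Rot Y s w Z := by
  obtain ⟨⟨b0, u₀, b1, b2, -⟩, hd⟩ := hs
  obtain rfl := h1.uniq b1
  obtain ⟨T', hT'⟩ := pb_ex m2.1
  have := conn Z
  obtain ⟨k1, w', k2, k3⟩ := rtu_mf b0 hd hk h1 b2 h2 m1.1 m2.1 i1 i2 hT hT' hs' h3 e2
  exact ⟨hk, g, g', s', w', u, a, u', _, T, i1, i2, m1, m2, hs', k1, k2, h1, h2, h3, k3, hT,
    pb_inv m1.1 m2.1 i1 hT hT' _, e2⟩

end Vale.Agent.P301Z.Rot
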