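import Vale.Agent.P301Z.Rot.Typ

/-!
# P301Z, rotation: the algebra at a point
-/

open scoped ComplexOrder Matrix
open Complex
open Vale.Agent.P272.K Vale.Agent.P299.IX Vale.Agent.P299.IX.Fock
open Vale.Agent.P281Z.Hg Vale.Agent.P301Z.Lat

noncomputable section

namespace Vale.Agent.P301Z.Rot

variable {d : ℕ} {w s : Mx d} {T : Cm d → Cm d}

/-- `T` is the quaternionic structure defined by `w` and `s` -/
def Qt (w s : Mx d) (T : Cm d → Cm d) : Prop :=
  (∀ v, s *ᵥ v = w *ᵥ star (T v)) ∧ ∀ v, T (T v) = -v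

theorem star_herm (hw : w.IsHermitian) (v : Cm d) : star (w *ᵥ v) = wᵀ *ᵥ star v := by
  rw [star_mv]
  exact congrArg (· *ᵥ star v) (Matrix.ext fun i j => hw.apply j i)

theorem star_skew (hs : sᵀ = -s) (v : Cm d) : star (s *ᵥ v) = -(sᴴ *ᵥ star v) := by
  rw [star_mv, ← Matrix.neg_mulVec]
  refine congrArg (· *ᵥ star v) (Matrix.ext fun i j => ?_)
  have k : s j i = -s i j := congrFun (congrFun hs i) j
  simp [k]

theorem unit_ct (hd : s.det ≠ 0) : IsUnit sᴴ.det := by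
  rw [Matrix.det_conjTranspose]
  exact (isUnit_iff_ne_zero.2 hd).star

theorem qt_of_rel (hw : w.IsHermitian) (hs : sᵀ = -s) (hd : s.det ≠ 0)
    (h : w * (sᴴ)⁻¹ * wᵀ = s) : ∃ T, Qt w s T := by
  have k : ∀ v, s *ᵥ v = w *ᵥ (((sᴴ)⁻¹ * wᵀ) *ᵥ v) := fun v => by
    rw [Matrix.mulVec_mulVec, ← Matrix.mul_assoc, h]
  refine ⟨fun v => star (((sᴴ)⁻¹ * wᵀ) *ᵥ v), fun v => by rw [star_star, k], fun v => ?_⟩
  show star (_ *ᵥ star _) = _
  rw [← Matrix.mulVec_mulVec, ← star_herm hw, ← k, star_skew hs, Matrix.mulVec_neg,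
    Matrix.mulVec_mulVec, Matrix.nonsing_inv_mul _ (unit_ct hd), Matrix.one_mulVec, star_neg,
    star_star]

theorem rel_of_qt (hw : w.IsHermitian) (hs : sᵀ = -s) (hd : s.det ≠ 0) (h : Qt w s T) :
    w * (sᴴ)⁻¹ * wᵀ = s := by
  refine Matrix.ext_iff_mulVec.2 fun v => ?_
  have k := congrArg star (h.1 (T v))
  rw [h.2, star_skew hs, star_herm hw, star_star, Matrix.mulVec_neg, neg_inj] at k
  rw [← Matrix.mulVec_mulVec, ← Matrix.mulVec_mulVec, ← k, Matrix.mulVec_mulVec (star (T v)),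
    Matrix.nonsing_inv_mul _ (unit_ct hd), Matrix.one_mulVec, h.1]

/-- the Hermitian form of a matrix -/
def hh (w : Mx d) (a b : Cm d) : ℂ := a ⬝ᵥ w *ᵥ star b

/-- the bilinear form of a matrix -/
def ss (s : Mx d) (a b : Cm d) : ℂ := a ⬝ᵥ s *ᵥ b

theorem hh_star (hw : w.IsHermitian) (a b : Cm d) : star (hh w a b) = hh w b a := by
  rw [hh, hh, ← Matrix.star_dotProduct_star, star_herm hw, star_star, dotProduct_comm,
    Matrix.dotProduct_mulVec, Matrix.vecMul_transpose, dotProduct_comm]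

theorem hh_smul_l (c : ℂ) (a b : Cm d) : hh w (c • a) b = c * hh w a b := by
  rw [hh, hh, smul_dotProduct, smul_eq_mul]

theorem hh_smul_r (c : ℂ) (a b : Cm d) : hh w a (c • b) = star c * hh w a b := by
  rw [hh, hh, star_smul, Matrix.mulVec_smul, dotProduct_smul, smul_eq_mul]

theorem ss_smul_r (c : ℂ) (a b : Cm d) : ss s a (c • b) = c * ss s a b := by
  rw [ss, ss, Matrix.mulVec_smul, dotProduct_smul, smul_eq_mul]

theorem hh_neg_l (a b : Cm d) : hh w (-a) b = -hh w a b := by rw [hh, hh, neg_dotProduct]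

theorem hh_neg_r (a b : Cm d) : hh w a (-b) = -hh w a b := by
  rw [hh, hh, star_neg, Matrix.mulVec_neg, dotProduct_neg]

theorem ss_neg_l (a b : Cm d) : ss s (-a) b = -ss s a b := by rw [ss, ss, neg_dotProduct]

theorem ss_neg_r (a b : Cm d) : ss s a (-b) = -ss s a b := by
  rw [ss, ss, Matrix.mulVec_neg, dotProduct_neg]

theorem ss_skew (hs : sᵀ = -s) (a b : Cm d) : ss s b a = -ss s a b := dot_skew hs a b

theorem hh_pos (hw : w.PosDef) {a : Cm d} (ha : a ≠ 0) : 0 < hh w a a := by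
  have k := (Matrix.posDef_iff_dotProduct_mulVec.1 hw).2 (star_ne_zero.2 ha)
  rwa [star_star] at k

theorem hh_T (h : Qt w s T) (a b : Cm d) : hh w a (T b) = ss s a b := by rw [hh, ss, h.1]

theorem ss_T (h : Qt w s T) (a b : Cm d) : ss s a (T b) = -hh w a b := by
  rw [← hh_T h, h.2, hh_neg_r]

/-- the rotated symplectic form (times two) -/
def rO (w s : Mx d) : Fo d := f11 w - f20 s + cjv (f20 s)

/-- the rotated Kaehler form -/
def rC (s : Mx d) : Fo d := f20 s + cjv (f20 s)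

theorem bv_rO (hs : sᵀ = -s) (a b : Cm d) :
    bv (rO w s) a b = I * (hh w a b - hh w b a) - ss s a b + star (ss s a b) := by
  rw [rO, bv_add, bv_sub, bv_cjv, bv_f11, bv_f20 hs]
  rfl

theorem bv_rC (hs : sᵀ = -s) (a b : Cm d) : bv (rC s) a b = ss s a b + star (ss s a b) := by
  rw [rC, bv_add, bv_cjv, bv_f20 hs]
  rfl

theorem jr_rO (hw : w.IsHermitian) (hs : sᵀ = -s) (h : Qt w s T) (a : Cm d) :
    Jr (rO w s) a (-T a) := fun b => by
  rw [bv_rO hs, bv_rO hs, hh_neg_l, hh_neg_r, ss_neg_l, ← hh_star hw b (T a), hh_T h,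
    ss_skew hs b (T a), ss_T h, ss_skew hs a b]
  simp only [star_neg, neg_neg, hh_star hw]
  linear_combination (-(hh w a b - hh w b a)) * I_sq

theorem nd_rO (hw : w.PosDef) (hs : sᵀ = -s) (a : Cm d) (h : ∀ b, bv (rO w s) a b = 0) :
    a = 0 := by
  by_contra ha
  have k := h (I • a)
  have k1 : ss s a a = 0 := by linear_combination (ss_skew hs a a) / 2
  rw [bv_rO hs, ss_smul_r, hh_smul_l, hh_smul_r, k1, Complex.star_def, conj_I] at k
  refine (hh_pos hw ha).ne' ?_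
  simp only [mul_zero, map_zero] at k
  linear_combination k / 2 + hh w a a * I_sq

theorem rC_J (hw : w.IsHermitian) (hs : sᵀ = -s) (h : Qt w s T) (a b : Cm d) :
    bv (rC s) (-T a) (-T b) = bv (rC s) a b := by
  rw [bv_rC hs, bv_rC hs, ss_neg_l, ss_neg_r, ss_T h, ← hh_star hw b (T a), hh_T h, ss_skew hs a b]
  simp only [star_neg, neg_neg, star_star]
  ring

theorem rC_real (hs : sᵀ = -s) (a b : Cm d) : star (bv (rC s) a b) = bv (rC s) a b := by
  rw [bv_rC hs, star_add, star_star, add_comm]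

theorem rC_pos (hw : w.PosDef) (hs : sᵀ = -s) (h : Qt w s T) {a : Cm d} (ha : a ≠ 0) :
    0 < bv (rC s) a (-T a) := by
  rw [bv_rC hs, ss_neg_r, ss_T h, neg_neg, hh_star hw.isHermitian]
  exact add_pos (hh_pos hw ha) (hh_pos hw ha)

theorem rC_rO (hw : w.IsHermitian) (hs : sᵀ = -s) (h : Qt w s T) (a b : Cm d) :
    bv (rC s) a (-T (-I • b)) - I * bv (rC s) a (-I • b) = bv (rO w s) a b := by
  rw [bv_rC hs, bv_rC hs, bv_rO hs, ss_neg_r, ss_T h, neg_neg, hh_star hw, hh_smul_l, hh_smul_r,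
    ss_smul_r]
  simp only [star_mul', star_neg, Complex.star_def, conj_I, neg_neg]
  linear_combination (ss s a b - starRingEnd ℂ (ss s a b)) * I_sq

theorem bv_sub_l (u : Fo d) (a a' b : Cm d) : bv u (a - a') b = bv u a b - bv u a' b := by
  simp only [← bL_apply, map_sub, sub_apply]

theorem jr_uniq {u : Fo d} (nd : ∀ a, (∀ b, bv u a b = 0) → a = 0) {a a' a'' : Cm d}
    (h : Jr u a a') (h' : Jr u a a'') : a' = a'' :=
  sub_eq_zero.1 (nd _ fun b => by rw [bv_sub_l, h, h', sub_self])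

theorem hh_w11 {u : Fo d} (h : ∀ a b, bv u (I • a) (I • b) = bv u a b) (a b : Cm d) :
    2 * hh (w11 u) a b = bv u a (I • b) - I * bv u a b := by
  have k : ∀ a b, bv u a b = I * (hh (w11 u) a b - hh (w11 u) b a) := bv_11 h
  rw [k, k, hh_smul_l, hh_smul_r, Complex.star_def, conj_I]
  linear_combination (2 * hh (w11 u) a b) * I_sq

end Vale.Agent.P301Z.Rot
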