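import Vale.Agent.P301Z.Rot.Iso

/-!
# P301Z, rotation: manifolds with the period `j k x` are rotations
-/

open scoped Manifold ContDiff ComplexOrder Topology Matrix
open Filter Complex
open Vale.Agent.P272.K Vale.Agent.P299.IX Vale.Agent.P299.IX.Fock
open Vale.Agent.P281Z (Mf)
open Vale.Agent.P281Z.Hg Vale.Agent.P301Z.Lat
open Vale.Agent.P301.H599 (IsHolTwoForm)
open Vale.Agent.P301.H450 (IsHK)
open Vale.Agent.P299.H835 (smulM isKahler_smulM)

noncomputable section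

namespace Vale.Agent.P301Z.Rot

variable {n r : ℕ} {B : BB n r} {Y : MK B} {s w : Fld Y.V} {p : Fin r → ℂ} {k : Fin r → ℝ}

theorem kc_smul (hL : LAT) (h : Y.Kc w k) {t : ℝ} (ht : 0 < t) : Y.Kc (smulM t w) (t • k) := by
  obtain ⟨hw, -, a, h1, h2, h3⟩ := h
  have k := isKahler_smulM ht hw
  refine ⟨k, R11.kahler k, (t : ℂ) • a, fun e x hx => ?_, h2.smul _, ?_⟩
  · rw [vl_smul, h1.val hx, ← hL.pwa.f11_smul]
    rfl
  · rw [map_smul, h3, rc_smul]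

theorem sym_smul (hL : LAT) (h : Y.Sym s p) {c : ℂ} (hc : c ≠ 0) :
    Y.Sym (fun e z => c • s e z) (c • p) := by
  obtain ⟨⟨hs, u, h1, h2, h3⟩, hd⟩ := h
  refine ⟨⟨⟨fun e x hx i j => analyticAt_const.mul (hs.holo e x hx i j), fun e x hx => ?_,
    fun e e' x hx hx' => ?_⟩, c • u, fun e x hx => ?_, h2.smul _, ?_⟩, fun e x hx => ?_⟩
  · rw [Matrix.transpose_smul, hs.alt e x hx, smul_neg]
  · rw [hs.change e e' x hx hx', Matrix.mul_smul, Matrix.smul_mul]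
  · rw [vl_smul, h1 e x hx, hL.pwa.f20_smul]
  · rw [map_smul, h3]
  · rw [Matrix.det_smul]
    exact mul_ne_zero (pow_ne_zero _ hc) (hd e x hx)

/-- the constant of the compatibility relation -/
theorem kappa_eq (hL : LAT) (h : Y.HK s w p k) {κ : ℝ} (hk : IsHK s w κ) :
    qR B.q k k = κ * (2 * (qC B.q p (star p)).re) := by
  have k1 := hL.rel.vol11 h.2.1.2
  have k2 : ∀ e x, At e x → (w e (e x)).det.re = κ ^ n * ‖(s e (e x)).det‖ := fun e x hx => by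
    have k3 := P301.H450.det_rel (hk.kahler.posDef e x hx) (isUnit_iff_ne_zero.2 (h.1.2 e x hx))
      (hk.rel e x hx)
    refine (pow_left_inj₀ (Complex.lt_def.1 (hk.kahler.posDef e x hx).det_pos).1.le
      (mul_nonneg (pow_pos hk.pos n).le (norm_nonneg _)) two_ne_zero).1 ?_
    rw [k3]
    ring
  rw [INT.intX_congr (D' := fun e z => κ ^ n * ‖(s e z).det‖) k2, INT.intX_const_mul, hL.hr.vols h,
    mul_left_comm, ← mul_pow] at k1
  exact ((pow_left_inj₀ (mul_nonneg hk.pos.le (mul_nonneg zero_le_two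
    (Complex.lt_def.1 (hL.rel.ppb h)).1.le)) h.2.2.le B.npos.ne').1
    (mul_left_cancel₀ B.Cpos.ne' k1)).symm

/-- the hyperkaehler metric in a given class -/
theorem exists_hk (hL : LAT) (h : Y.HK s w p k) :
    ∃ (w' : Fld Y.V) (κ : ℝ), Y.Kc w' k ∧ IsHK s w' κ := by
  have := conn Y
  obtain ⟨u, κ, hu, hk⟩ := P301.H450.exists_rf (hL.rel.sym h) h.2.1.1
  exact ⟨_, κ, ⟨hk.kahler, hL.rel.same h.2.1.2 (R11.kahler hk.kahler) ⟨u, hu, fun _ _ _ => rfl⟩⟩,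
    hk⟩

theorem q_j (F : Fr B) (hk : F.InP k) (x : ℝ) :
    qC B.q (F.j k x) (star (F.j k x)) = (2 * F.e : ℝ) := by
  have e1 : qR B.q (F.v' x) (F.v' x) = F.e := by
    rw [Fr.v', sub_eq_add_neg, ← neg_smul]
    simp only [qR_add_l, qR_add_r, qR_smul_l, qR_smul_r, Tp.qR_symm B (zr F.v) (zr F.l), F.ll, F.lv,
      F.vv]
    ring
  have e2 : star (F.j k x) = rc k + I • rc (F.v' x) := by
    funext i
    simp [Fr.j, rc]
  rw [e2, Fr.j, sub_eq_add_neg, ← neg_smul]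
  simp only [qC_add_l, qC_add_r, qC_smul_l, qC_smul_r, qC_rc, e1, hk.2.2.2,
    Tp.qR_symm B (F.v' x) k]
  push_cast
  linear_combination (-(F.e : ℂ)) * I_sq

theorem rot1 (hN : An.CNN) (hL : LAT) : ROT1 := by
  intro n r B F k x T Z s' w' c c₁ hk hT hc hc₁ hs hw
  have hT' : (T : ℂ) ≠ 0 := Complex.ofReal_ne_zero.2 hT.ne'
  have s1 := sym_smul hL hs (div_ne_zero hT' hc)
  have w1 := kc_smul hL hw (div_pos two_pos hc₁)
  rw [smul_smul, div_mul_cancel₀ _ hc] at s1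
  rw [smul_smul, div_mul_cancel₀ _ hc₁.ne'] at w1
  have q1 : qR B.q ((2 : ℝ) • F.re (x + T * I)) ((2 : ℝ) • F.re (x + T * I)) = 4 * F.e * T ^ 2 := by
    rw [qR_smul_l, qR_smul_r, Tp.q_re]
    ring
  have q2 : 0 < 4 * F.e * T ^ 2 := by
    have := F.epos
    positivity
  obtain ⟨w₂, κ, w2, hκ⟩ := exists_hk hL ⟨s1, w1, q1 ▸ q2⟩
  have k1 := kappa_eq hL ⟨s1, w2, q1 ▸ q2⟩ hκ
  rw [q1, star_smul, qC_smul_l, qC_smul_r, q_j F hk, Complex.star_def, conj_ofReal, ← ofReal_mul,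
    ← ofReal_mul, ofReal_re] at k1
  obtain rfl : κ = 1 := mul_right_cancel₀ q2.ne' (by linear_combination -k1)
  obtain ⟨Y, s, w, h⟩ := rotW_ex hN hL s1 w2 hκ
  obtain ⟨-, a1, a2⟩ := h.cls s1 w2
  have e1 : (2 : ℂ)⁻¹ • (rc ((2 : ℝ) • F.re (x + T * I)) - (T : ℂ) • F.j k x +
      star ((T : ℂ) • F.j k x)) = F.p (x + T * I) := by
    rw [Tp.p_eq, ← Tp.re_eq]
    funext i
    simp [Fr.j, rc]
    ring
  have e2 : (fun i => 2 * (((T : ℂ) • F.j k x) i).re) = (2 * T) • k := by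
    funext i
    simp [Fr.j, rc]
    ring
  rw [e1] at a1
  rw [e2] at a2
  exact ⟨⟨Y, s⟩, a1, w, 2 * T, mul_pos two_pos hT, a2, rot_iff.2 ⟨_, _, h.symm s1.1.1 s1.2⟩⟩

end Vale.Agent.P301Z.Rot
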