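import Vale.Agent.P301Z.Rot.Rtu

/-!
# P301Z, rotation: invariance under isomorphisms
-/

open scoped Manifold ContDiff ComplexOrder Topology Matrix
open Filter Complex
open Vale.Agent.P272.K Vale.Agent.P299.IX Vale.Agent.P299.IX.Fock
open Vale.Agent.P281Z (Mf HolM)
open Vale.Agent.P281Z.Hg Vale.Agent.P301Z.Lat
open Vale.Agent.P301.H599 (IsHolTwoForm)
open Vale.Agent.P301.H450 (IsHK)

noncomputable section

namespace Vale.Agent.P301Z.Rot

section

variable {d : ℕ} {V Z : Mf d} {f : V.X → Z.X} {g : Z.X → V.X} {T : Fs Z → Fs V}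

/-- pull-back of a hyperkaehler metric under an isomorphism -/
theorem hk_pb [ConnectedSpace V.X] {s : Fld V} {s' w' : Fld Z} {a' : Fs Z}
    (hf : Smo d d f) (hg : Smo d d g) (i1 : Function.LeftInverse g f)
    (i2 : Function.LeftInverse f g) (hT : IsPb f T) (hh' : HolM d d f) (hs : IsHolTwoForm s)
    (hs' : IsHolTwoForm s') (hd : ∀ e x, At e x → (s' e (e x)).det ≠ 0) (hk : IsHK s' w' 1)
    (h2 : Is11 w' a') (rel : ∀ e c x, At e x → At c (f x) → ∀ a b,
      ss (s e (e x)) a b = ss (s' c (c (f x))) (dF f e c x a) (dF f e c x b)) :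
    (∀ e x, At e x → (s e (e x)).det ≠ 0) ∧ ∃ w, IsHK s w 1 ∧ Is11 w (T a') := by
  have hw := hk.kahler.posDef
  have key : ∀ e x, At e x → ∃ (c : Chart d Z.X) (M : Cm d →L[ℝ] Cm d), At c (f x) ∧
      (∀ a, M (dF f e c x a) = a) ∧ (∀ a, dF f e c x (M a) = a) ∧
      ∀ a, dF f e c x (I • a) = I • dF f e c x a := fun e x h => by
    obtain ⟨c, hc⟩ := ex_at (f x)
    have k1 := dF_inv hg hf i2 hc (by rwa [i1 x])
    rw [i1 x] at k1
    exact ⟨c, dF g c e (f x), hc, dF_inv hf hg i1 h hc, k1, fun a => by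
      rw [dF_hol hh' h hc, dF_hol hh' h hc, Matrix.mulVec_smul]⟩
  have m4 : ∀ e x, At e x → (s e (e x)).det ≠ 0 := fun e x h => det_ne_iff.2 fun a ha => by
    obtain ⟨c, M, hc, l1, l2, -⟩ := key e x h
    rw [← l1 a, det_ne_iff.1 (hd c _ hc) (dF f e c x a) fun b => by
      rw [← l2 b, ← rel e c x h hc, ha], map_zero]
  have p1 : ∀ e x, At e x → ∀ a b,
      bv (vl (T a') e (e x)) (I • a) (I • b) = bv (vl (T a') e (e x)) a b := fun e x h a b => by
    obtain ⟨c, M, hc, -, -, hL⟩ := key e x h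
    simp only [bv_dF hf hT a' h hc, hL, bv_is11 h2 hc, hh_smul_l, hh_smul_r, Complex.star_def,
      conj_I]
    linear_combination (-I * (hh (w' c (c (f x))) (dF f e c x a) (dF f e c x b) -
      hh (w' c (c (f x))) (dF f e c x b) (dF f e c x a))) * I_sq
  have p2 : ∀ e x, At e x → ∀ a b,
      star (bv (vl (T a') e (e x)) a b) = bv (vl (T a') e (e x)) a b := fun e x h a b => by
    obtain ⟨c, M, hc, -⟩ := key e x h
    rw [bv_dF hf hT a' h hc, ← bv_cjv, ← vl_cj a' hc, cj_om hk.kahler h2]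
  have p4 : ∀ e c x, At e x → At c (f x) → (∀ a, dF f e c x (I • a) = I • dF f e c x a) → ∀ a b,
      hh (w11 (vl (T a') e (e x))) a b = hh (w' c (c (f x))) (dF f e c x a) (dF f e c x b) :=
    fun e c x h hc hL a b => by
      have k := hh_w11 (p1 e x h) a b
      simp only [bv_dF hf hT a' h hc, hL, bv_is11 h2 hc, hh_smul_l, hh_smul_r, Complex.star_def,
        conj_I] at k
      linear_combination k / 2 - hh (w' c (c (f x))) (dF f e c x a) (dF f e c x b) * I_sq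
  have p3 : ∀ e x, At e x → ∀ a, a ≠ 0 → 0 < bv (vl (T a') e (e x)) a (I • a) := by
    intro e x h a ha
    obtain ⟨c, M, hc, l1, -, hL⟩ := key e x h
    rw [bv_11_I (p1 e x h)]
    refine mul_pos two_pos (lt_of_lt_of_eq (hh_pos (hw c _ hc) fun h0 => ha ?_)
      (p4 e c x h hc hL a a).symm)
    rw [← l1 a, h0, map_zero]
  have cT := cl_pb hf hT (cl_om hk.kahler h2)
  have kw := kah_of cT p1 p2 p3
  refine ⟨m4, _, isHK_of_rel one_pos kw hs m4 fun e x h => ?_, (r11_of cT p1 p2).2⟩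
  obtain ⟨c, M, hc, l1, l2, hL⟩ := key e x h
  obtain ⟨Q, hQ⟩ := qt_of_rel (hw c _ hc).isHermitian (hs'.alt c _ hc) (hd c _ hc)
    (by simpa using hk.rel c _ hc)
  rw [Complex.ofReal_one, one_smul]
  refine rel_of_qt (T := fun b => M (Q (dF f e c x b))) (kw.posDef e x h).isHermitian
    (hs.alt e x h) (m4 e x h) ⟨fun b => dotProduct_eq _ _ fun a => ?_, fun b => ?_⟩
  · rw [dotProduct_comm, dotProduct_comm _ a]
    refine (rel e c x h hc a b).trans (Eq.symm ((p4 e c x h hc hL a _).trans ?_))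
    rw [l2, hh_T hQ]
  · show M (Q (dF f e c x (M _))) = _
    rw [l2, hQ.2, map_neg, l1]

end

variable {n r : ℕ} {B : BB n r}

/-- the symplectic form of a manifold which has a rotation is nondegenerate -/
theorem rot_det {Y Z : MK B} {s w : Fld Y.V} (hs : IsHolTwoForm s) (h : Rot Y s w Z) :
    ∀ e x, At e x → (s e (e x)).det ≠ 0 := fun e x hx h0 => by
  obtain ⟨hk, g, g', s', w', u, a, u', a', T, i1, i2, m1, m2, -, -, hk', h1, -, -, h4, hT, e1,
    -⟩ := h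
  have k := hk.rel e x hx
  rw [Matrix.nonsing_inv_apply_not_isUnit _ (by simp [Matrix.det_conjTranspose, h0]),
    Matrix.mul_zero, Matrix.zero_mul, Complex.ofReal_one, one_smul] at k
  obtain ⟨c, hc⟩ := ex_at (g x)
  have k1 := dF_inv m2.1 m1.1 i2 hc (by rwa [i1 x])
  rw [i1 x] at k1
  have hv : (fun _ => 1 : Cm (n + n)) ≠ 0 := fun h => by
    simpa using congrFun h ⟨0, by have := B.npos; omega⟩
  have k2 := bv_dF m1.1 hT a' hx hc (dF g' c e (g x) fun _ => 1)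
    (dF g' c e (g x) (I • fun _ => 1))
  rw [k1, k1, e1, vl_add, vl_cj u hx, bv_add, bv_cjv, bv_is20 hs h1 hx, ← k, bv_is11 h4 hc,
    hh_smul_l, hh_smul_r, Complex.star_def, conj_I] at k2
  simp only [ss, Matrix.zero_mulVec, dotProduct_zero, map_zero, add_zero] at k2
  refine (hh_pos (hk'.kahler.posDef c _ hc) hv).ne' ?_
  linear_combination -k2 / 2 + hh (w' c (c (g x))) (fun _ => 1) (fun _ => 1) * I_sq

theorem rotK_of {P P' : Pt B} {k : Fin r → ℝ} {Z : MK B} {g : P.Y.V.X → P'.Y.V.X}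
    {g' : P'.Y.V.X → P.Y.V.X} (i1 : Function.LeftInverse g' g) (i2 : Function.LeftInverse g g')
    (hg : HolM (n + n) (n + n) g) (m1 : P.Y.Mor P'.Y g) (m2 : P'.Y.Mor P.Y g')
    (hs : IsHolTwoForm P.s) (hs' : IsHolTwoForm P'.s) (rel : ∀ e c x, At e x → At c (g x) →
      ∀ a b, ss (P.s e (e x)) a b = ss (P'.s c (c (g x))) (dF g e c x a) (dF g e c x b))
    (h : RotK P' k Z) : RotK P k Z := by
  obtain ⟨w', lam, hl, ⟨-, -, a₀, c1, c2, c3⟩, hR⟩ := h
  have hd := rot_det hs' hR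
  obtain ⟨hk, f, f', s, w, u, a, u', a', S, j1, j2, n1, n2, k1, k2, k3, h1, h2, h3, h4, hS, e1,
    e2⟩ := hR
  obtain rfl := h2.uniq c1
  obtain ⟨T, hT⟩ := pb_ex m1.1
  have := conn P.Y
  obtain ⟨-, w₁, q1, q2⟩ := hk_pb m1.1 m2.1 i1 i2 hT hg hs hs' hd hk h2 rel
  have cj := pb_cj m1.1 hT u
  refine ⟨w₁, lam, hl, ⟨q1.kahler, R11.kahler q1.kahler, T a, q2, cl_om q1.kahler q2,
    (m1.2 T hT a c2).trans c3⟩, q1, f ∘ g, g' ∘ f', s, w, T u, T a, u', a', T ∘ S, j1.comp i1,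
    Function.LeftInverse.comp i2 j2, mor_comp m1 n1, mor_comp n2 m2, k1, k2, k3, fun e x hx => ?_,
    q2, h3, h4, (pb_comp m1.1 n1.1 hT hS).2, ?_, ?_⟩
  · obtain ⟨c, hc⟩ := ex_at (g x)
    refine bv_ext ?_ (dg_f20 _) fun a b => ?_
    · have k := ((pb1T _ P.Y.V.X _ P'.Y.V.X g m1.1).2.2.2 T _ _ hT (dR_real _) (dR_real _)).2.1 2 u
      rw [← (dR_real _).dg 2 (T u) e x hx, ← k, ext_F (u := (dR P'.Y.V).dg 2 u) (v := u)
        fun c y hy => by rw [(dR_real _).dg 2 u c y hy, h1 c y hy, dg_f20]]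
    · rw [bv_dF m1.1 hT u hx hc, bv_is20 hs' h1 hc, bv_f20 (hs.alt e x hx), ← rel e c x hx hc]
      rfl
  · rw [Function.comp_apply, e1, map_add, cj]
  · rw [Function.comp_apply, ← map_smul, e2, map_add, map_sub, cj]

theorem iso : ISO := by
  rintro n r B k P P' Z ⟨g, g', i1, i2, h1, h2, m1, m2, s1, s2, h⟩
  have rel : ∀ e c x, At e x → At c (g x) → ∀ a b,
      ss (P.s e (e x)) a b = ss (P'.s c (c (g x))) (dF g e c x a) (dF g e c x b) :=
    fun e c x he hc a b => by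
      rw [dF_hol h1 he hc, dF_hol h1 he hc, ss, ss, dot_conj, h e c x he hc]
  refine ⟨rotK_of i2 i1 h2 m2 m1 s2 s1 fun c e y hc he a b => ?_,
    rotK_of i1 i2 h1 m1 m2 s1 s2 rel⟩
  have k := dF_inv m2.1 m1.1 i2 hc he
  rw [rel e c (g' y) he (by rwa [i2 y]), k, k, i2 y]

end Vale.Agent.P301Z.Rot
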