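import Vale.Agent.P301Z.Rot.F2
import Vale.Agent.P301Z.Lat.Defs
import Vale.Agent.P301Z.An.Sk

/-!
# P301Z, rotation: the complex manifold defined by a complex symplectic form
-/

open scoped Manifold ContDiff ComplexOrder Topology Matrix
open Filter Complex
open Vale.Agent.P272.K Vale.Agent.P272.K.C2 Vale.Agent.P299.IX Vale.Agent.P299.IX.Fock
open Vale.Agent.P281Z (Mf)
open Vale.Agent.P281Z.Hg Vale.Agent.P301Z.Lat

noncomputable section

namespace Vale.Agent.P301Z.Rot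

variable {d : ℕ}

section trn

variable {X : Type} [TopologicalSpace X] {c c' c'' : Chart d X} {x : X}

/-- the change of coordinates -/
abbrev trn (c c' : Chart d X) : Cm d → Cm d := fun z => c' (c.symm z)

theorem trn_ev (c'' : Chart d X) (h : x ∈ c.source) (h' : x ∈ c'.source) :
    trn c c'' =ᶠ[𝓝 (c x)] fun z => trn c' c'' (trn c c' z) := by
  have k : ∀ᶠ z in 𝓝 (c x), c.symm z ∈ c'.source :=
    (c.continuousAt_symm (c.map_source h)).eventually_mem
      (by rw [c.left_inv h]; exact c'.open_source.mem_nhds h')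
  filter_upwards [k] with z hz
  simp only [trn, c'.left_inv hz]

theorem trn_at (c' : Chart d X) (h : x ∈ c.source) : trn c c' (c x) = c' x := by
  simp only [trn, c.left_inv h]

theorem trn_fd (h : x ∈ c.source) (h' : x ∈ c'.source) (d1 : ContDiffAt ℝ ∞ (trn c c') (c x))
    (d2 : ContDiffAt ℝ ∞ (trn c' c'') (c' x)) (v : Cm d) : fderiv ℝ (trn c c'') (c x) v =
      fderiv ℝ (trn c' c'') (c' x) (fderiv ℝ (trn c c') (c x) v) := by
  rw [← trn_at c' h] at d2 ⊢
  rw [(trn_ev c'' h h').fderiv_eq, fderiv_fun_comp _ (d2.differentiableAt (by simp))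
    (d1.differentiableAt (by simp))]
  rfl

theorem trn_cd (h : x ∈ c.source) (h' : x ∈ c'.source) (d1 : ContDiffAt ℝ ∞ (trn c c') (c x))
    (d2 : ContDiffAt ℝ ∞ (trn c' c'') (c' x)) : ContDiffAt ℝ ∞ (trn c c'') (c x) := by
  rw [← trn_at c' h] at d2
  exact (d2.comp _ d1).congr_of_eventuallyEq (trn_ev c'' h h')

theorem trn_self (h : x ∈ c.source) (v : Cm d) : fderiv ℝ (trn c c) (c x) v = v := by
  have k : trn c c =ᶠ[𝓝 (c x)] id := c.eventually_right_inverse' h
  rw [k.fderiv_eq, fderiv_id]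
  rfl

theorem trn_inv (h : x ∈ c.source) (h' : x ∈ c'.source) (d1 : ContDiffAt ℝ ∞ (trn c c') (c x))
    (d2 : ContDiffAt ℝ ∞ (trn c' c) (c' x)) (v : Cm d) :
    fderiv ℝ (trn c' c) (c' x) (fderiv ℝ (trn c c') (c x) v) = v := by
  rw [← trn_fd h h' d1 d2, trn_self h]

end trn

theorem hol_of_lin {f : Cm d → Cm d} {z : Cm d} (hf : DifferentiableAt ℝ f z)
    (h : ∀ v, fderiv ℝ f z (I • v) = I • fderiv ℝ f z v) : DifferentiableAt ℂ f z := by
  refine differentiableAt_pi.2 fun i => P299.H954.differentiableAt_of_dzb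
    (differentiableAt_pi.1 hf i) fun l => ?_
  have k : (Pi.single l I : Cm d) = I • Pi.single l 1 := by
    rw [← Pi.single_smul, smul_eq_mul, mul_one]
  have k2 : ∀ v, fderiv ℝ (fun y => f y i) z v = fderiv ℝ f z v i := fun v => by
    rw [fderiv_apply hf]
    rfl
  rw [dzb, k2, k2, k, h, Pi.smul_apply, smul_eq_mul, ← mul_assoc, I_mul_I]
  simp

variable {V : Mf d} {Om : Fs V} {e e' c c' : Chart d V.X} {x : V.X}

theorem at_cd (h : At e x) (h' : At e' x) : ContDiffAt ℝ ∞ (trn e e') (e x) :=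
  (pbc d V.X d V.X f1a k1b').2.1.sm e e' x h h'

theorem bv_ch (u : Fs V) (h : At e x) (h' : At e' x) (a b : Cm d) : bv (vl u e (e x)) a b =
    bv (vl u e' (e' x)) (fderiv ℝ (trn e e') (e x) a) (fderiv ℝ (trn e e') (e x) b) := by
  rw [(vl_isF u).ch e e' x h h']
  exact bv_jc ((at_cd h h').differentiableAt (by simp)) _ _ _

/-- `a'` is `J a` for the complex structure defined by the form `u` -/
def Jr (u : Fo d) (a a' : Cm d) : Prop := ∀ b, bv u a' b = I * bv u a b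

theorem jr_ch (h : At e x) (h' : At e' x) {a a' : Cm d} (k : Jr (vl Om e (e x)) a a') :
    Jr (vl Om e' (e' x)) (fderiv ℝ (trn e e') (e x) a) (fderiv ℝ (trn e e') (e x) a') := by
  intro b
  rw [← trn_inv h'.2 h.2 (at_cd h' h) (at_cd h h') b, ← bv_ch Om h h', ← bv_ch Om h h', k]

/-- charts which are holomorphic for the structure defined by `Om` -/
def Adp (Om : Fs V) (c : Chart d V.X) : Prop := ∀ e x, At e x → x ∈ c.source →
  ContDiffAt ℝ ∞ (trn e c) (e x) ∧ ContDiffAt ℝ ∞ (trn c e) (c x) ∧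
    ∀ a a', Jr (vl Om e (e x)) a a' → fderiv ℝ (trn e c) (e x) a' = I • fderiv ℝ (trn e c) (e x) a

/-- the structure defined by `Om` is integrable -/
structure Cov (Om : Fs V) : Prop where
  cs : ∀ e x, At e x → ∀ a, ∃ a', Jr (vl Om e (e x)) a a'
  cov : ∀ x, ∃ c, Adp Om c ∧ x ∈ c.source

theorem adp_hol (H : Cov Om) (h : Adp Om c) (h' : Adp Om c') (hx : x ∈ c.source)
    (hx' : x ∈ c'.source) : DifferentiableAt ℂ (trn c c') (c x) := by
  have he : At (chartAt (Cm d) x) x := ⟨chart_mem_atlas _ _, mem_chart_source _ _⟩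
  obtain ⟨a1, a2, a3⟩ := h _ x he hx
  obtain ⟨b1, -, b3⟩ := h' _ x he hx'
  have k := trn_cd hx he.2 a2 b1
  refine hol_of_lin (k.differentiableAt (by simp)) fun v => ?_
  obtain ⟨a', ha⟩ := H.cs _ x he (fderiv ℝ (trn c (chartAt (Cm d) x)) (c x) v)
  have k1 := a3 _ _ ha
  rw [trn_inv hx he.2 a2 a1] at k1
  rw [← k1, ← trn_fd he.2 hx a1 k, b3 _ _ ha, ← trn_fd hx he.2 a2 b1]

/-- the atlas of all adapted charts -/
@[reducible] def chOf (H : Cov Om) : ChartedSpace (Cm d) V.X where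
  atlas := {c | Adp Om c}
  chartAt x := (H.cov x).choose
  mem_chart_source x := (H.cov x).choose_spec.2
  chart_mem_atlas x := (H.cov x).choose_spec.1

theorem mf_chOf (H : Cov Om) : @IsManifold ℂ _ (Cm d) _ _ (Cm d) _ 𝓘(ℂ, Cm d) ω V.X _ (chOf H) := by
  let _ := chOf H
  refine isManifold_of_contDiffOn _ _ _ fun c c' h h' => ?_
  simp only [modelWithCornersSelf_coe, modelWithCornersSelf_coe_symm, Set.preimage_id,
    Set.range_id, Set.inter_univ, Function.comp_id, Function.id_comp]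
  refine (P268.analyticOnNhd_of_differentiableOn (c.symm ≫ₕ c').open_source fun z hz => ?_
    ).contDiffOn_of_completeSpace
  have k := adp_hol H h h' (c.map_target hz.1) hz.2
  rw [c.right_inv hz.1] at k
  exact k.differentiableWithinAt

/-- the complex manifold defined by `Om` -/
def mfOf (H : Cov Om) : Mf d := @Mf.mk d V.X V.top V.t2 V.cpt (chOf H) (mf_chOf H)

/-- the identity map -/
def idOf (H : Cov Om) : V.X ≃ₜ (mfOf H).X := Homeomorph.refl V.X

theorem at_mfOf (H : Cov Om) {c : Chart d (mfOf H).X} {y : (mfOf H).X} :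
    At c y ↔ Adp Om c ∧ y ∈ c.source := Iff.rfl

theorem smo_idOf (H : Cov Om) : Smo d d (idOf H) :=
  ⟨(idOf H).continuous, fun e _ x h h' => (h'.1 e x h h'.2).1⟩

theorem smo_idOf_symm (H : Cov Om) : Smo d d (idOf H).symm :=
  ⟨(idOf H).symm.continuous, fun _ e x h h' => (h.1 e x h' h.2).2.1⟩

/-- adapted charts from local holomorphic coordinates -/
theorem adp_of_W {W : Cm d → Cm d} (h : At e x) {O : Set V.X} (hO : O ∈ 𝓝 x)
    (hW : ∀ᶠ z in 𝓝 (e x), ContDiffAt ℝ ∞ W z ∧ Function.Bijective (fderiv ℝ W z) ∧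
      ∀ a a', Jr (vl Om e z) a a' → fderiv ℝ W z a' = I • fderiv ℝ W z a) :
    ∃ c, Adp Om c ∧ x ∈ c.source ∧ c.source ⊆ e.source ∩ O ∧ ∀ y, c y = W (e y) := by
  have hO' : ∀ᶠ z in 𝓝 (e x), e.symm z ∈ O :=
    (e.continuousAt_symm (e.map_source h.2)).eventually_mem (by rwa [e.left_inv h.2])
  obtain ⟨U, hU, hUo, hx⟩ := eventually_nhds_iff.1 (hW.and hO')
  have hE : ∀ z ∈ U, ∃ L : Cm d ≃L[ℝ] Cm d, HasFDerivAt W (L : Cm d →L[ℝ] Cm d) z := fun z hz =>
    ⟨(LinearEquiv.ofBijective (fderiv ℝ W z : Cm d →ₗ[ℝ] Cm d) (hU z hz).1.2.1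
      ).toContinuousLinearEquiv, ((hU z hz).1.1.differentiableAt (by simp)).hasFDerivAt⟩
  obtain ⟨L, hL⟩ := hE _ hx
  let g := ((hU _ hx).1.1.toOpenPartialHomeomorph W hL (by simp)).restrOpen U hUo
  have hg : ∀ z, g z = W z := fun _ => rfl
  refine ⟨e ≫ₕ g, fun e' y hy hc => ?_, ⟨h.2, (hU _ hx).1.1.mem_toOpenPartialHomeomorph_source hL
    (by simp), hx⟩, fun y hy => ⟨hy.1, by simpa [e.left_inv hy.1] using (hU _ hy.2.2).2⟩,
    fun _ => rfl⟩
  have he : At e y := ⟨h.1, hc.1⟩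
  have hy' := (hU _ hc.2.2).1
  have k0 : trn e (e ≫ₕ g) =ᶠ[𝓝 (e y)] W := by
    filter_upwards [e.eventually_right_inverse' hc.1] with z hz
    exact congrArg W hz
  have k1 := hy'.1.congr_of_eventuallyEq k0
  have k2 : ContDiffAt ℝ ∞ (trn (e ≫ₕ g) e) ((e ≫ₕ g) y) := by
    obtain ⟨L', hL'⟩ := hE _ hc.2.2
    have k3 : g.symm (g (e y)) = e y := g.left_inv hc.2
    have k4 : ContDiffAt ℝ ∞ g.symm (g (e y)) := g.contDiffAt_symm (f₀' := L') (g.map_source hc.2)
      (by rw [k3]; exact hL') (by rw [k3]; exact hy'.1)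
    refine k4.congr_of_eventuallyEq ?_
    filter_upwards [(e ≫ₕ g).open_target.mem_nhds ((e ≫ₕ g).map_source hc)] with z hz
    exact e.right_inv hz.2
  refine ⟨trn_cd hy.2 hc.1 (at_cd hy he) k1, trn_cd hc hc.1 k2 (at_cd he hy), fun a a' ha => ?_⟩
  rw [trn_fd hy.2 hc.1 (at_cd hy he) k1, trn_fd hy.2 hc.1 (at_cd hy he) k1, k0.fderiv_eq]
  exact hy'.2.2 _ _ (jr_ch hy he ha)

theorem cl_dT {u : Fs V} (hu : Cl2 V u) (h : At e x) : dT (vl u e) (e x) = 0 := by
  rw [← (dR_real V).d u e x h, hu.1]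
  rfl

theorem cl_dg {u : Fs V} (hu : Cl2 V u) (h : At e x) : dg 2 *ᵥ vl u e (e x) = vl u e (e x) := by
  rw [← (dR_real V).dg 2 u e x h, hu.2]

theorem ev_pt (h : At e x) {Q : Cm d → Prop} (k : ∀ y, At e y → Q (e y)) :
    ∀ᶠ z in 𝓝 (e x), Q z := by
  filter_upwards [e.open_target.mem_nhds (e.map_source h.2)] with z hz
  have h1 := k (e.symm z) ⟨h.1, e.map_target hz⟩
  rwa [e.right_inv hz] at h1

/-- integrability from the theorem of Newlander and Nirenberg -/
theorem cov_of_cnn (hN : An.CNN) (hc : Cl2 V Om)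
    (nd : ∀ e x, At e x → ∀ a, (∀ b, bv (vl Om e (e x)) a b = 0) → a = 0)
    (cs : ∀ e x, At e x → ∀ a, ∃ a', Jr (vl Om e (e x)) a a') : Cov Om := by
  refine ⟨cs, fun x => ?_⟩
  obtain ⟨e, he⟩ : ∃ e : Chart d V.X, At e x := ⟨_, chart_mem_atlas _ _, mem_chart_source _ _⟩
  have t : Tendsto (Prod.snd : ℂ × Cm d → Cm d) (𝓝 (0, e x)) (𝓝 (e x)) := continuousAt_snd
  have sm := ev_pt he (Q := fun z => ContDiffAt ℝ ∞ (vl Om e) z) fun y hy => (vl_isF Om).sm e y hy
  obtain ⟨W, h1, h2⟩ := hN ℂ (Cm d) (fun q => bL (vl Om e q.2)) (0, e x)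
    ((t.eventually sm).mono fun q hq => bL_cd (hq.comp q contDiffAt_snd))
    (fun a ha => nd e x he a fun b => by rw [← bL_apply]; exact ha b) (by
      filter_upwards [t.eventually sm, t.eventually (ev_pt he (Q := fun z => dT (vl Om e) z = 0 ∧
        ∀ a, ∃ a', Jr (vl Om e z) a a') fun y hy => ⟨cl_dT hc hy, cs e y hy⟩)] with q hq hq'
      refine ⟨fun u v => ?_, closed_bL (hq.of_le (by norm_cast)) hq'.1, fun u => ?_,
        fun u v => differentiableAt_const _⟩
      · rw [bL_apply, bL_apply, bv_skew]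
      · simpa only [bL_apply, Jr] using hq'.2 u)
  have t' : Tendsto (fun z : Cm d => ((0 : ℂ), z)) (𝓝 (e x)) (𝓝 (0, e x)) :=
    (Continuous.prodMk_right 0).continuousAt
  obtain ⟨c, k1, k2, -⟩ := adp_of_W (Om := Om) (W := fun z => W (0, z)) he univ_mem (by
    filter_upwards [t'.eventually h1, t'.eventually h2] with z hz hz'
    exact ⟨hz.comp z (contDiffAt_const.prodMk contDiffAt_id), hz'.1,
      fun a a' ha => hz'.2.1 a a' fun b => by simpa only [bL_apply] using ha b⟩)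
  exact ⟨c, k1, k2⟩

end Vale.Agent.P301Z.Rot
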